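import Vale.Agent.P238.MathlibUsed

/-!
# P238 / H360 / Cut : cut semimetrics, hashing, histograms of hashed values
-/

set_option autoImplicit false

namespace Vale.Agent.P238.H360

open Finset

variable {X Y : Type}

/-- `d` is a nonnegative combination of finitely many cut semimetrics. -/
def IsCut (d : X → X → ℝ) : Prop :=
  ∃ (K : Type) (_ : Fintype K) (w : K → ℝ) (S : K → X → Bool), (∀ k, 0 ≤ w k) ∧
    ∀ x y, d x y = ∑ k, w k * (if S k x = S k y then 0 else 1)

namespace IsCut

variable {d e : X → X → ℝ}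

theorem nonneg (h : IsCut d) (x y : X) : 0 ≤ d x y := by
  obtain ⟨K, _, w, S, hw, hd⟩ := h
  rw [hd]
  refine Finset.sum_nonneg fun k _ => mul_nonneg (hw k) ?_
  split_ifs <;> norm_num

theorem self (h : IsCut d) (x : X) : d x x = 0 := by
  obtain ⟨K, _, w, S, hw, hd⟩ := h
  rw [hd]
  simp

theorem symm (h : IsCut d) (x y : X) : d x y = d y x := by
  obtain ⟨K, _, w, S, hw, hd⟩ := h
  rw [hd, hd]
  refine Finset.sum_congr rfl fun k _ => ?_
  by_cases hk : S k x = S k y
  · rw [if_pos hk, if_pos hk.symm]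
  · rw [if_neg hk, if_neg fun h => hk h.symm]

theorem triangle (h : IsCut d) (x y z : X) : d x z ≤ d x y + d y z := by
  obtain ⟨K, _, w, S, hw, hd⟩ := h
  rw [hd, hd, hd, ← Finset.sum_add_distrib]
  refine Finset.sum_le_sum fun k _ => ?_
  rw [← mul_add]
  refine mul_le_mul_of_nonneg_left ?_ (hw k)
  split_ifs with h1 h2 h3 h3 h4 h5 h5
  all_goals norm_num
  exact h1 (h4.trans h5)

theorem zero : IsCut (fun _ _ : X => (0 : ℝ)) :=
  ⟨Empty, inferInstance, fun k => k.elim, fun k => k.elim, fun k => k.elim, fun x y => by simp⟩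

theorem add (hd : IsCut d) (he : IsCut e) : IsCut (fun x y => d x y + e x y) := by
  obtain ⟨K, _, w, S, hw, hd⟩ := hd
  obtain ⟨K', _, w', S', hw', he⟩ := he
  refine ⟨K ⊕ K', inferInstance, Sum.elim w w', Sum.elim S S', ?_, fun x y => ?_⟩
  · rintro (k | k)
    · exact hw k
    · exact hw' k
  · show d x y + e x y = _
    rw [hd, he, Fintype.sum_sum_type]
    rfl

theorem smul (hd : IsCut d) {c : ℝ} (hc : 0 ≤ c) : IsCut (fun x y => c * d x y) := by
  obtain ⟨K, _, w, S, hw, hd⟩ := hd
  refine ⟨K, inferInstance, fun k => c * w k, S, fun k => mul_nonneg hc (hw k), fun x y => ?_⟩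
  show c * d x y = _
  rw [hd, Finset.mul_sum]
  exact Finset.sum_congr rfl fun k _ => (mul_assoc _ _ _).symm

theorem comap (hd : IsCut d) (g : Y → X) : IsCut (fun x y => d (g x) (g y)) := by
  obtain ⟨K, _, w, S, hw, hd⟩ := hd
  exact ⟨K, inferInstance, w, fun k x => S k (g x), hw, fun x y => hd _ _⟩

theorem sum {ι : Type} (s : Finset ι) (D : ι → X → X → ℝ) (h : ∀ i ∈ s, IsCut (D i)) :
    IsCut (fun x y => ∑ i ∈ s, D i x y) := by
  classical
  induction s using Finset.induction_on with
  | empty => simpa using zero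
  | insert i s hi ih =>
    have h1 := (h i (Finset.mem_insert_self _ _)).add
      (ih fun j hj => h j (Finset.mem_insert_of_mem hj))
    refine (congrArg IsCut ?_).mp h1
    funext x y
    rw [Finset.sum_insert hi]

theorem nat (N : X → ℕ) (s : ℕ) (h : ∀ x, N x ≤ s) : IsCut (fun x y => |(N x : ℝ) - N y|) := by
  refine ⟨Fin s, inferInstance, fun _ => 1, fun t x => decide ((t : ℕ) < N x),
    fun _ => zero_le_one, fun x y => ?_⟩
  have key : ∀ x y, N x ≤ N y → |(N x : ℝ) - N y| =
      ∑ t : Fin s, (1 : ℝ) * (if decide ((t : ℕ) < N x) = decide ((t : ℕ) < N y) then 0 else 1) := by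
    intro x y hxy
    rw [Fin.sum_univ_eq_sum_range
      (fun t => (1 : ℝ) * (if decide (t < N x) = decide (t < N y) then 0 else 1)) s]
    have h1 : ∀ t ∈ range s, (1 : ℝ) * (if decide (t < N x) = decide (t < N y) then 0 else 1) =
        if t ∈ Finset.Ico (N x) (N y) then 1 else 0 := by
      intro t _
      rw [one_mul]
      by_cases h1 : t < N x <;> by_cases h2 : t < N y
      · rw [if_pos (by simp [h1, h2]), if_neg (by rw [Finset.mem_Ico]; omega)]
      · omega
      · rw [if_neg (by simp [h1, h2]), if_pos (by rw [Finset.mem_Ico]; omega)]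
      · rw [if_pos (by simp [h1, h2]), if_neg (by rw [Finset.mem_Ico]; omega)]
    rw [Finset.sum_congr rfl h1, Finset.sum_ite_mem, Finset.sum_const]
    have h2 : range s ∩ Finset.Ico (N x) (N y) = Finset.Ico (N x) (N y) := by
      ext t
      have := h y
      simp only [Finset.mem_inter, Finset.mem_range, Finset.mem_Ico]
      omega
    rw [h2, Nat.card_Ico, nsmul_eq_mul, mul_one, Nat.cast_sub hxy, abs_sub_comm,
      abs_of_nonneg (sub_nonneg.2 (by exact_mod_cast hxy))]
  rcases le_total (N x) (N y) with h1 | h1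
  · exact key x y h1
  · show |(N x : ℝ) - N y| = _
    rw [abs_sub_comm, key y x h1]
    refine Finset.sum_congr rfl fun t _ => ?_
    congr 1
    by_cases h2 : decide ((t : ℕ) < N x) = decide ((t : ℕ) < N y)
    · rw [if_pos h2, if_pos h2.symm]
    · rw [if_neg h2, if_neg fun h => h2 h.symm]

end IsCut

/-! ### hashing -/

/-- A random function `h` whose values at `x`, `y` differ with probability `1 - exp (-lam d)`. -/
theorem hash_exists {d : X → X → ℝ} (hd : IsCut d) (lam : ℝ) (hl : 0 ≤ lam) :
    ∃ (Ω V : Type) (_ : Fintype Ω) (_ : Fintype V) (_ : DecidableEq V) (P : Ω → ℝ)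
      (h : Ω → X → V), (∀ ω, 0 ≤ P ω) ∧ ∑ ω, P ω = 1 ∧
      ∀ x y, ∑ ω, P ω * (if h ω x = h ω y then 0 else 1) = 1 - Real.exp (-(lam * d x y)) := by
  classical
  obtain ⟨K, _, w, S, hw, hd⟩ := hd
  have hp0 : ∀ k, 0 ≤ Real.exp (-(lam * w k)) := fun k => (Real.exp_pos _).le
  have hp1 : ∀ k, Real.exp (-(lam * w k)) ≤ 1 := fun k =>
    Real.exp_le_one_iff.2 (neg_nonpos.2 (mul_nonneg hl (hw k)))
  set P : Finset K → ℝ := fun T => (∏ k ∈ T, (1 - Real.exp (-(lam * w k)))) *
    ∏ k ∈ univ \ T, Real.exp (-(lam * w k)) with hP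
  have hsum : ∀ f : K → ℝ, ∑ T : Finset K, (∏ k ∈ T, ((1 - Real.exp (-(lam * w k))) * f k)) *
      ∏ k ∈ univ \ T, Real.exp (-(lam * w k)) =
      ∏ k, ((1 - Real.exp (-(lam * w k))) * f k + Real.exp (-(lam * w k))) := by
    intro f
    rw [Finset.prod_add, Finset.powerset_univ]
  have hone : ∑ T, P T = 1 := by
    have h1 := hsum fun _ => 1
    simp only [mul_one, sub_add_cancel, Finset.prod_const_one] at h1
    exact h1
  refine ⟨Finset K, K → Bool, inferInstance, inferInstance, inferInstance, P,
    fun T x k => decide (k ∈ T) && S k x, fun T => ?_, hone, fun x y => ?_⟩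
  · exact mul_nonneg (Finset.prod_nonneg fun k _ => sub_nonneg.2 (hp1 k))
      (Finset.prod_nonneg fun k _ => hp0 k)
  · have h1 : ∀ T : Finset K, ((fun k => decide (k ∈ T) && S k x) =
        (fun k => decide (k ∈ T) && S k y)) ↔ ∀ k ∈ T, S k x = S k y := by
      intro T
      constructor
      · intro h k hk
        have := congrFun h k
        simpa [hk] using this
      · intro h
        funext k
        by_cases hk : k ∈ T
        · simp [hk, h k hk]
        · simp [hk]
    have h2 : ∑ T, P T * (if ((fun k => decide (k ∈ T) && S k x) =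
        (fun k => decide (k ∈ T) && S k y)) then (1 : ℝ) else 0) =
        Real.exp (-(lam * d x y)) := by
      have h3 := hsum fun k => if S k x = S k y then 1 else 0
      have h4 : ∀ k, (1 - Real.exp (-(lam * w k))) * (if S k x = S k y then 1 else 0) +
          Real.exp (-(lam * w k)) =
          Real.exp (-(lam * (w k * (if S k x = S k y then 0 else 1)))) := by
        intro k
        split_ifs <;> simp
      rw [Finset.prod_congr rfl fun k _ => h4 k, ← Real.exp_sum] at h3
      have h5 : ∑ k, -(lam * (w k * (if S k x = S k y then 0 else 1))) = -(lam * d x y) := by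
        rw [hd, Finset.mul_sum, Finset.sum_neg_distrib]
      rw [h5] at h3
      rw [← h3]
      refine Finset.sum_congr rfl fun T _ => ?_
      rw [Finset.prod_mul_distrib, Finset.prod_boole, hP]
      simp only
      rw [if_congr (h1 T) rfl rfl]
      ring_nf
    have h3 : ∀ T : Finset K, P T * (if ((fun k => decide (k ∈ T) && S k x) =
        (fun k => decide (k ∈ T) && S k y)) then (0 : ℝ) else 1) = P T -
        P T * (if ((fun k => decide (k ∈ T) && S k x) =
        (fun k => decide (k ∈ T) && S k y)) then (1 : ℝ) else 0) := by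
      intro T
      split_ifs <;> ring
    rw [Finset.sum_congr rfl fun T _ => h3 T, Finset.sum_sub_distrib, hone, h2]

/-! ### histograms -/

/-- Comparison of two histograms through a partial matching. -/
theorem match_le {V : Type} [Fintype V] [DecidableEq V] (a b : ℕ → V) (s : ℕ) (J : Finset ℕ)
    (σ : ℕ → ℕ) (hJ : J ⊆ range s) (hσ : ∀ j ∈ J, σ j ∈ range s)
    (hinj : ∀ i ∈ J, ∀ j ∈ J, σ i = σ j → i = j) :
    ∑ v, |((((range s).filter fun j => a j = v).card : ℕ) : ℝ) -
      (((range s).filter fun j => b j = v).card : ℕ)| ≤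
      2 * ((s : ℝ) - J.card) + 2 * ∑ j ∈ J, (if a (σ j) = b j then (0 : ℝ) else 1) := by
  classical
  have himg : J.image σ ⊆ range s := by
    intro j hj
    obtain ⟨i, hi, rfl⟩ := Finset.mem_image.1 hj
    exact hσ i hi
  have hcard : (J.image σ).card = J.card := Finset.card_image_of_injOn fun i hi j hj => hinj i hi j hj
  have hA : ∀ v, ((((range s).filter fun j => a j = v).card : ℕ) : ℝ) =
      ∑ j ∈ J, (if a (σ j) = v then (1 : ℝ) else 0) +
        ∑ j ∈ range s \ J.image σ, (if a j = v then (1 : ℝ) else 0) := by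
    intro v
    rw [Finset.card_filter]
    push_cast
    rw [← Finset.sum_sdiff himg, add_comm, Finset.sum_image fun i hi j hj => hinj i hi j hj]
  have hB : ∀ v, ((((range s).filter fun j => b j = v).card : ℕ) : ℝ) =
      ∑ j ∈ J, (if b j = v then (1 : ℝ) else 0) +
        ∑ j ∈ range s \ J, (if b j = v then (1 : ℝ) else 0) := by
    intro v
    rw [Finset.card_filter]
    push_cast
    rw [← Finset.sum_sdiff hJ, add_comm]
  have h1 : ∀ v, |((((range s).filter fun j => a j = v).card : ℕ) : ℝ) -
      (((range s).filter fun j => b j = v).card : ℕ)| ≤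
      ∑ j ∈ J, |(if a (σ j) = v then (1 : ℝ) else 0) - (if b j = v then (1 : ℝ) else 0)| +
      (∑ j ∈ range s \ J.image σ, (if a j = v then (1 : ℝ) else 0) +
        ∑ j ∈ range s \ J, (if b j = v then (1 : ℝ) else 0)) := by
    intro v
    rw [hA, hB]
    have e1 : (∑ j ∈ J, (if a (σ j) = v then (1 : ℝ) else 0) +
        ∑ j ∈ range s \ J.image σ, (if a j = v then (1 : ℝ) else 0)) -
        (∑ j ∈ J, (if b j = v then (1 : ℝ) else 0) +
        ∑ j ∈ range s \ J, (if b j = v then (1 : ℝ) else 0)) =
        ∑ j ∈ J, ((if a (σ j) = v then (1 : ℝ) else 0) - (if b j = v then (1 : ℝ) else 0)) +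
        (∑ j ∈ range s \ J.image σ, (if a j = v then (1 : ℝ) else 0) -
        ∑ j ∈ range s \ J, (if b j = v then (1 : ℝ) else 0)) := by
      rw [Finset.sum_sub_distrib]; ring
    rw [e1]
    have p1 : 0 ≤ ∑ j ∈ range s \ J.image σ, (if a j = v then (1 : ℝ) else 0) :=
      Finset.sum_nonneg fun j _ => by split_ifs <;> norm_num
    have p2 : 0 ≤ ∑ j ∈ range s \ J, (if b j = v then (1 : ℝ) else 0) :=
      Finset.sum_nonneg fun j _ => by split_ifs <;> norm_num
    refine (abs_add_le _ _).trans (add_le_add (Finset.abs_sum_le_sum_abs _ _) ?_)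
    rw [abs_le]
    constructor <;> linarith
  have hv : ∀ c : V, ∑ v, (if c = v then (1 : ℝ) else 0) = 1 := by
    intro c
    simp
  calc _ ≤ ∑ v, (∑ j ∈ J, |(if a (σ j) = v then (1 : ℝ) else 0) - (if b j = v then (1 : ℝ) else 0)| +
      (∑ j ∈ range s \ J.image σ, (if a j = v then (1 : ℝ) else 0) +
        ∑ j ∈ range s \ J, (if b j = v then (1 : ℝ) else 0))) :=
        Finset.sum_le_sum fun v _ => h1 v
    _ = ∑ j ∈ J, ∑ v, |(if a (σ j) = v then (1 : ℝ) else 0) - (if b j = v then (1 : ℝ) else 0)| +
        (∑ j ∈ range s \ J.image σ, ∑ v, (if a j = v then (1 : ℝ) else 0) +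
        ∑ j ∈ range s \ J, ∑ v, (if b j = v then (1 : ℝ) else 0)) := by
      rw [Finset.sum_add_distrib, Finset.sum_add_distrib, Finset.sum_comm,
        Finset.sum_comm (s := univ) (t := range s \ J.image σ),
        Finset.sum_comm (s := univ) (t := range s \ J)]
    _ = ∑ j ∈ J, ∑ v, |(if a (σ j) = v then (1 : ℝ) else 0) - (if b j = v then (1 : ℝ) else 0)| +
        2 * ((s : ℝ) - J.card) := by
      have c1 : (((range s \ J.image σ).card : ℕ) : ℝ) = s - J.card := by
        rw [Finset.card_sdiff_of_subset himg, hcard, Finset.card_range,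
          Nat.cast_sub (by rw [← Finset.card_range s]; exact Finset.card_le_card hJ)]
      have c2 : (((range s \ J).card : ℕ) : ℝ) = s - J.card := by
        rw [Finset.card_sdiff_of_subset hJ, Finset.card_range,
          Nat.cast_sub (by rw [← Finset.card_range s]; exact Finset.card_le_card hJ)]
      simp only [hv, Finset.sum_const, nsmul_eq_mul, mul_one, c1, c2]
      ring
    _ ≤ _ := by
      have h2 : ∀ j ∈ J, ∑ v, |(if a (σ j) = v then (1 : ℝ) else 0) -
          (if b j = v then (1 : ℝ) else 0)| ≤ 2 * (if a (σ j) = b j then (0 : ℝ) else 1) := by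
        intro j _
        split_ifs with hj
        · rw [hj]
          simp
        · calc _ ≤ ∑ v, ((if a (σ j) = v then (1 : ℝ) else 0) + (if b j = v then (1 : ℝ) else 0)) := by
                refine Finset.sum_le_sum fun v _ => ?_
                split_ifs <;> norm_num
            _ = _ := by rw [Finset.sum_add_distrib, hv, hv]; norm_num
      rw [Finset.mul_sum]
      have := Finset.sum_le_sum h2
      linarith

/-- If no value of `a` is a value of `b`, the histograms are at distance `2 s`. -/
theorem disj_ge {V : Type} [Fintype V] [DecidableEq V] (a b : ℕ → V) (s : ℕ)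
    (h : ∀ i ∈ range s, ∀ j ∈ range s, a i ≠ b j) :
    2 * (s : ℝ) ≤ ∑ v, |((((range s).filter fun j => a j = v).card : ℕ) : ℝ) -
      (((range s).filter fun j => b j = v).card : ℕ)| := by
  classical
  have h1 : ∀ v, |((((range s).filter fun j => a j = v).card : ℕ) : ℝ) -
      (((range s).filter fun j => b j = v).card : ℕ)| =
      ((((range s).filter fun j => a j = v).card : ℕ) : ℝ) +
      (((range s).filter fun j => b j = v).card : ℕ) := by
    intro v
    by_cases hv : ∃ i ∈ range s, a i = v
    · obtain ⟨i, hi, hiv⟩ := hv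
      have h2 : ((range s).filter fun j => b j = v) = ∅ := by
        refine Finset.filter_eq_empty_iff.2 fun j hj hb => ?_
        exact h i hi j hj (hiv.trans hb.symm)
      rw [h2]
      simp
    · have h2 : ((range s).filter fun j => a j = v) = ∅ := by
        refine Finset.filter_eq_empty_iff.2 fun j hj ha => hv ⟨j, hj, ha⟩
      rw [h2]
      simp
  rw [Finset.sum_congr rfl fun v _ => h1 v, Finset.sum_add_distrib]
  have h2 : ∀ c : ℕ → V, ∑ v, ((((range s).filter fun j => c j = v).card : ℕ) : ℝ) = s := by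
    intro c
    have h3 : ∀ v, ((((range s).filter fun j => c j = v).card : ℕ) : ℝ) =
        ∑ j ∈ range s, (if c j = v then (1 : ℝ) else 0) := by
      intro v
      rw [Finset.card_filter]
      push_cast
      rfl
    rw [Finset.sum_congr rfl fun v _ => h3 v, Finset.sum_comm]
    simp
  rw [h2, h2]
  linarith

/-- The expected distance of the histograms of the hashed values of `s` points. -/
theorem histo {d : X → X → ℝ} (hd : IsCut d) (s : ℕ) (lam : ℝ) (hl : 0 ≤ lam) (g : ℕ → Y → X) :
    ∃ E : Y → Y → ℝ, IsCut E ∧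
      (∀ x y (J : Finset ℕ) (σ : ℕ → ℕ), J ⊆ range s → (∀ j ∈ J, σ j ∈ range s) →
        (∀ i ∈ J, ∀ j ∈ J, σ i = σ j → i = j) →
        E x y ≤ 2 * ((s : ℝ) - J.card) + 2 * lam * ∑ j ∈ J, d (g (σ j) x) (g j y)) ∧
      (∀ x y, (∀ i < s, ∀ j < s, (s : ℝ) ≤ d (g i x) (g j y)) →
        2 * (s : ℝ) * (1 - (s : ℝ) ^ 2 * Real.exp (-(lam * s))) ≤ E x y) := by
  classical
  obtain ⟨Ω, V, _, _, _, P, h, hP, hone, hh⟩ := hash_exists hd lam hl
  refine ⟨fun x y => ∑ ω, P ω * ∑ v, |((((range s).filter fun j => h ω (g j x) = v).card : ℕ) : ℝ) -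
      (((range s).filter fun j => h ω (g j y) = v).card : ℕ)|, ?_, ?_, ?_⟩
  · refine IsCut.sum _ (fun ω x y => P ω * ∑ v, |((((range s).filter fun j =>
      h ω (g j x) = v).card : ℕ) : ℝ) -
      (((range s).filter fun j => h ω (g j y) = v).card : ℕ)|) fun ω _ => IsCut.smul ?_ (hP ω)
    refine IsCut.sum _ (fun v x y => |((((range s).filter fun j =>
      h ω (g j x) = v).card : ℕ) : ℝ) -
      (((range s).filter fun j => h ω (g j y) = v).card : ℕ)|) fun v _ => ?_
    refine IsCut.nat (fun x => ((range s).filter fun j => h ω (g j x) = v).card) s fun x => ?_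
    exact (Finset.card_filter_le _ _).trans (Finset.card_range s).le
  · intro x y J σ hJ hσ hinj
    calc _ ≤ ∑ ω, P ω * (2 * ((s : ℝ) - J.card) +
          2 * ∑ j ∈ J, (if h ω (g (σ j) x) = h ω (g j y) then (0 : ℝ) else 1)) :=
          Finset.sum_le_sum fun ω _ => mul_le_mul_of_nonneg_left
            (match_le (fun j => h ω (g j x)) (fun j => h ω (g j y)) s J σ hJ hσ hinj) (hP ω)
      _ = 2 * ((s : ℝ) - J.card) + 2 * ∑ j ∈ J, (1 - Real.exp (-(lam * d (g (σ j) x) (g j y)))) := by
        have e1 : ∀ ω, P ω * (2 * ((s : ℝ) - J.card) +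
            2 * ∑ j ∈ J, (if h ω (g (σ j) x) = h ω (g j y) then (0 : ℝ) else 1)) =
            P ω * (2 * ((s : ℝ) - J.card)) +
            2 * ∑ j ∈ J, P ω * (if h ω (g (σ j) x) = h ω (g j y) then (0 : ℝ) else 1) := by
          intro ω
          rw [← Finset.mul_sum]
          ring
        rw [Finset.sum_congr rfl fun ω _ => e1 ω, Finset.sum_add_distrib, ← Finset.sum_mul, hone,
          one_mul, ← Finset.mul_sum, Finset.sum_comm]
        simp only [hh]
      _ ≤ _ := by
        have e2 : ∑ j ∈ J, (1 - Real.exp (-(lam * d (g (σ j) x) (g j y)))) ≤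
            ∑ j ∈ J, lam * d (g (σ j) x) (g j y) := by
          refine Finset.sum_le_sum fun j _ => ?_
          have := Real.add_one_le_exp (-(lam * d (g (σ j) x) (g j y)))
          linarith
        rw [← Finset.mul_sum] at e2
        linarith
  · intro x y hxy
    have hs0 : (0 : ℝ) ≤ s := Nat.cast_nonneg s
    -- probability of a collision
    have hcol : ∀ i ∈ range s, ∀ j ∈ range s,
        ∑ ω, P ω * (if h ω (g i x) = h ω (g j y) then (1 : ℝ) else 0) ≤ Real.exp (-(lam * s)) := by
      intro i hi j hj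
      have e1 : ∀ ω, P ω * (if h ω (g i x) = h ω (g j y) then (1 : ℝ) else 0) =
          P ω - P ω * (if h ω (g i x) = h ω (g j y) then (0 : ℝ) else 1) := by
        intro ω
        split_ifs <;> ring
      rw [Finset.sum_congr rfl fun ω _ => e1 ω, Finset.sum_sub_distrib, hone, hh]
      have e2 : Real.exp (-(lam * d (g i x) (g j y))) ≤ Real.exp (-(lam * s)) :=
        Real.exp_le_exp.2 (neg_le_neg (mul_le_mul_of_nonneg_left
          (hxy i (Finset.mem_range.1 hi) j (Finset.mem_range.1 hj)) hl))
      linarith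
    have h1 : ∀ ω, 2 * (s : ℝ) * (1 - ∑ i ∈ range s, ∑ j ∈ range s,
        (if h ω (g i x) = h ω (g j y) then (1 : ℝ) else 0)) ≤
        ∑ v, |((((range s).filter fun j => h ω (g j x) = v).card : ℕ) : ℝ) -
          (((range s).filter fun j => h ω (g j y) = v).card : ℕ)| := by
      intro ω
      by_cases hc : ∀ i ∈ range s, ∀ j ∈ range s, h ω (g i x) ≠ h ω (g j y)
      · refine le_trans ?_ (disj_ge (fun j => h ω (g j x)) (fun j => h ω (g j y)) s hc)
        have e1 : 0 ≤ ∑ i ∈ range s, ∑ j ∈ range s,
            (if h ω (g i x) = h ω (g j y) then (1 : ℝ) else 0) :=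
          Finset.sum_nonneg fun i _ => Finset.sum_nonneg fun j _ => by split_ifs <;> norm_num
        nlinarith
      · push Not at hc
        obtain ⟨i, hi, j, hj, hij⟩ := hc
        have e1 : 1 ≤ ∑ i ∈ range s, ∑ j ∈ range s,
            (if h ω (g i x) = h ω (g j y) then (1 : ℝ) else 0) := by
          calc (1 : ℝ) = (if h ω (g i x) = h ω (g j y) then (1 : ℝ) else 0) := by rw [if_pos hij]
            _ ≤ ∑ j ∈ range s, (if h ω (g i x) = h ω (g j y) then (1 : ℝ) else 0) :=
              Finset.single_le_sum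
                (f := fun j => (if h ω (g i x) = h ω (g j y) then (1 : ℝ) else 0))
                (fun j _ => by positivity) hj
            _ ≤ _ := Finset.single_le_sum
                (f := fun i => ∑ j ∈ range s, (if h ω (g i x) = h ω (g j y) then (1 : ℝ) else 0))
                (fun i _ => Finset.sum_nonneg fun j _ => by positivity) hi
        have e2 : 0 ≤ ∑ v, |((((range s).filter fun j => h ω (g j x) = v).card : ℕ) : ℝ) -
          (((range s).filter fun j => h ω (g j y) = v).card : ℕ)| :=
          Finset.sum_nonneg fun v _ => abs_nonneg _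
        nlinarith
    calc 2 * (s : ℝ) * (1 - (s : ℝ) ^ 2 * Real.exp (-(lam * s)))
        ≤ 2 * (s : ℝ) * (1 - ∑ i ∈ range s, ∑ j ∈ range s,
          ∑ ω, P ω * (if h ω (g i x) = h ω (g j y) then (1 : ℝ) else 0)) := by
          refine mul_le_mul_of_nonneg_left (sub_le_sub_left ?_ _) (by positivity)
          calc _ ≤ ∑ i ∈ range s, ∑ j ∈ range s, Real.exp (-(lam * s)) :=
                Finset.sum_le_sum fun i hi => Finset.sum_le_sum fun j hj => hcol i hi j hj
            _ = _ := by
              simp only [Finset.sum_const, Finset.card_range, nsmul_eq_mul]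
              ring
      _ = ∑ ω, P ω * (2 * (s : ℝ) * (1 - ∑ i ∈ range s, ∑ j ∈ range s,
          (if h ω (g i x) = h ω (g j y) then (1 : ℝ) else 0))) := by
          have e1 : ∀ ω, P ω * (2 * (s : ℝ) * (1 - ∑ i ∈ range s, ∑ j ∈ range s,
              (if h ω (g i x) = h ω (g j y) then (1 : ℝ) else 0))) =
              2 * (s : ℝ) * (P ω - ∑ i ∈ range s, ∑ j ∈ range s,
                P ω * (if h ω (g i x) = h ω (g j y) then (1 : ℝ) else 0)) := by
            intro ω
            simp only [← Finset.mul_sum]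
            ring
          rw [Finset.sum_congr rfl fun ω _ => e1 ω, ← Finset.mul_sum, Finset.sum_sub_distrib, hone,
            Finset.sum_comm (s := univ) (t := range s)]
          congr 2
          refine Finset.sum_congr rfl fun i _ => ?_
          rw [Finset.sum_comm]
      _ ≤ _ := Finset.sum_le_sum fun ω _ => mul_le_mul_of_nonneg_left (h1 ω) (hP ω)

end Vale.Agent.P238.H360
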