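import Vale.Agent.P238.Defs

/-!
# P238 / H360 / Defs : words over arbitrary alphabets
-/

namespace Vale.Agent.P238.H360

/-- The edit distance on the words of length `n` over the alphabet `α`. -/
noncomputable def wordED (α : Type) (n : ℕ) (x y : Fin n → α) : ℝ :=
  (ED (List.ofFn x) (List.ofFn y) : ℝ)

/-- The edit distance on the words of length at most `n` over the alphabet `α`. -/
noncomputable def upToED (α : Type) (n : ℕ) (x y : {l : List α // l.length ≤ n}) : ℝ :=
  (ED x.1 y.1 : ℝ)

end Vale.Agent.P238.H360
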