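import Vale.Agent.P238.H360.Cut

/-!
# P238 / H360 / Snow : snowflakes of cut semimetrics
-/

set_option autoImplicit false

namespace Vale.Agent.P238.H360

open Finset

variable {X : Type}

/-- `1 - exp (-lam d)` is again a combination of cut semimetrics. -/
theorem IsCut.one_sub_exp {d : X → X → ℝ} (hd : IsCut d) {lam : ℝ} (hl : 0 ≤ lam) :
    IsCut (fun x y => 1 - Real.exp (-(lam * d x y))) := by
  classical
  obtain ⟨Ω, V, _, _, _, P, h, hP, hone, hh⟩ := hash_exists hd lam hl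
  have h0 : ∀ ω, IsCut (fun x y => if h ω x = h ω y then (0 : ℝ) else 1) := by
    intro ω
    refine ⟨V, inferInstance, fun _ => 1 / 2, fun v x => decide (h ω x = v),
      fun _ => by norm_num, fun x y => ?_⟩
    show (if h ω x = h ω y then (0 : ℝ) else 1) = _
    by_cases hxy : h ω x = h ω y
    · simp [hxy]
    · have h1 : ∀ a : V, (1 / 2 : ℝ) *
          (if decide (h ω x = a) = decide (h ω y = a) then 0 else 1) =
          1 / 2 * (if h ω x = a then 1 else 0) + 1 / 2 * (if h ω y = a then 1 else 0) := by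
        intro a
        by_cases h2 : h ω x = a <;> by_cases h3 : h ω y = a
        · exact absurd (h2.trans h3.symm) hxy
        · simp [h2, h3]
        · simp [h2, h3]
        · simp [h2, h3]
      rw [Finset.sum_congr rfl fun a _ => h1 a, Finset.sum_add_distrib, ← Finset.mul_sum,
        ← Finset.mul_sum, if_neg hxy]
      simp only [Finset.sum_ite_eq, Finset.mem_univ, if_true]
      norm_num
  have h1 := IsCut.sum univ (fun ω x y => P ω * (if h ω x = h ω y then (0 : ℝ) else 1))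
    fun ω _ => (h0 ω).smul (hP ω)
  refine (congrArg IsCut ?_).mp h1
  funext x y
  exact hh x y

/-- a geometric sum with ratio `> 1` -/
theorem geo_up {a : ℝ} (ha : 1 < a) (n : ℕ) :
    ∑ j ∈ range (n + 1), a ^ j ≤ a / (a - 1) * a ^ n := by
  have h1 : (0 : ℝ) < a - 1 := by linarith
  rw [geom_sum_eq ha.ne', div_mul_eq_mul_div, ← pow_succ', div_le_div_iff_of_pos_right h1]
  linarith

/-- a geometric sum with ratio `< 1` -/
theorem geo_down {a : ℝ} (h0 : 0 < a) (h1 : a < 1) (m n : ℕ) :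
    ∑ j ∈ Finset.Ico m n, a ^ j ≤ a ^ m / (1 - a) := by
  have h2 : (0 : ℝ) < 1 - a := by linarith
  rcases le_total m n with hmn | hmn
  · rw [Finset.sum_Ico_eq_sum_range]
    simp only [pow_add]
    rw [← Finset.mul_sum, geom_sum_eq h1.ne, div_eq_mul_inv _ (1 - a)]
    refine mul_le_mul_of_nonneg_left ?_ (pow_pos h0 m).le
    rw [← neg_sub a 1] at h2 ⊢
    rw [inv_neg, div_eq_mul_inv]
    have h3 : (a - 1)⁻¹ ≤ 0 := inv_nonpos.2 (by linarith)
    have h4 : 0 < a ^ (n - m) := pow_pos h0 _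
    nlinarith
  · rw [Finset.Ico_eq_empty_of_le hmn, Finset.sum_empty]
    positivity

/-- Every snowflake of a combination of cut semimetrics is, up to a constant, again one. -/
theorem snow {θ : ℝ} (h0 : 0 < θ) (h1 : θ ≤ 1) : ∃ K : ℝ, 1 ≤ K ∧ ∀ (X : Type) (d : X → X → ℝ),
    IsCut d → (∀ x y, d x y = 0 ∨ 1 ≤ d x y) → (∃ T : ℝ, ∀ x y, d x y ≤ T) →
    ∃ e : X → X → ℝ, IsCut e ∧ ∀ x y, d x y ^ θ ≤ e x y ∧ e x y ≤ K * d x y ^ θ := by
  rcases h1.lt_or_eq with h1 | h1
  swap
  · subst h1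
    refine ⟨1, le_rfl, fun X d hd _ _ => ⟨d, hd, fun x y => ?_⟩⟩
    simp
  have ha1 : 1 < (2 : ℝ) ^ θ := Real.one_lt_rpow (by norm_num) h0
  have hb0 : 0 < (2 : ℝ) ^ (θ - 1) := Real.rpow_pos_of_pos (by norm_num) _
  have hb1 : (2 : ℝ) ^ (θ - 1) < 1 := Real.rpow_lt_one_of_one_lt_of_neg (by norm_num) (by linarith)
  set a : ℝ := (2 : ℝ) ^ θ with ha
  set c : ℝ := (2 : ℝ) ^ (θ - 1) with hc
  refine ⟨4 * (a / (a - 1)) + 4 * (1 / (1 - c)), ?_, fun X d hd hd1 hT => ?_⟩
  · have e1 : 1 ≤ a / (a - 1) := by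
      rw [le_div_iff₀ (by linarith)]; linarith
    have e2 : 0 ≤ 1 / (1 - c) := by
      have : 0 < 1 - c := by linarith
      positivity
    linarith
  obtain ⟨T, hT⟩ := hT
  obtain ⟨J, hJ⟩ := pow_unbounded_of_one_lt T (by norm_num : (1 : ℝ) < 2)
  refine ⟨fun x y => 4 * ∑ j ∈ range (J + 1), a ^ j * (1 - Real.exp (-((1 / 2) ^ j * d x y))),
    (IsCut.sum _ (fun j x y => a ^ j * (1 - Real.exp (-((1 / 2) ^ j * d x y)))) fun j _ =>
      (hd.one_sub_exp (by positivity)).smul (by positivity)).smul (by norm_num), fun x y => ?_⟩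
  show d x y ^ θ ≤ 4 * ∑ j ∈ range (J + 1), a ^ j * (1 - Real.exp (-((1 / 2) ^ j * d x y))) ∧
    4 * ∑ j ∈ range (J + 1), a ^ j * (1 - Real.exp (-((1 / 2) ^ j * d x y))) ≤ _
  rcases hd1 x y with hxy | hxy
  · rw [hxy, Real.zero_rpow h0.ne']
    simp
  set t := d x y with ht
  have ht0 : 0 < t := by linarith
  have htJ : t < 2 ^ J := (hT x y).trans_lt hJ
  -- the dyadic scale of `t`
  obtain ⟨i, hi1, hi2⟩ := exists_nat_pow_near hxy (by norm_num : (1 : ℝ) < 2)
  have hiJ : i < J + 1 := by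
    by_contra hcon
    push Not at hcon
    have := pow_le_pow_right₀ (by norm_num : (1 : ℝ) ≤ 2) (show J ≤ i by omega)
    linarith
  have hterm0 : ∀ j, 0 ≤ a ^ j * (1 - Real.exp (-((1 / 2) ^ j * t))) := by
    intro j
    refine mul_nonneg (by positivity) (sub_nonneg.2 (Real.exp_le_one_iff.2 ?_))
    have : 0 ≤ (1 / 2 : ℝ) ^ j * t := by positivity
    linarith
  have hai : ∀ j : ℕ, a ^ j = ((2 : ℝ) ^ j) ^ θ := by
    intro j
    rw [ha, ← Real.rpow_natCast, ← Real.rpow_mul (by norm_num), mul_comm, Real.rpow_mul (by norm_num),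
      Real.rpow_natCast]
  have hci : ∀ j : ℕ, c ^ j = ((2 : ℝ) ^ j) ^ (θ - 1) := by
    intro j
    rw [hc, ← Real.rpow_natCast, ← Real.rpow_mul (by norm_num), mul_comm, Real.rpow_mul (by norm_num),
      Real.rpow_natCast]
  constructor
  · have e1 : a ^ i * (1 - Real.exp (-((1 / 2) ^ i * t))) ≤
        ∑ j ∈ range (J + 1), a ^ j * (1 - Real.exp (-((1 / 2) ^ j * t))) :=
      Finset.single_le_sum (f := fun j => a ^ j * (1 - Real.exp (-((1 / 2) ^ j * t))))
        (fun j _ => hterm0 j) (Finset.mem_range.2 hiJ)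
    have e2 : (1 : ℝ) ≤ (1 / 2) ^ i * t := by
      rw [div_pow, one_pow, div_mul_eq_mul_div, one_mul, le_div_iff₀ (by positivity), one_mul]
      exact hi1
    have e3 : Real.exp (-((1 / 2) ^ i * t)) ≤ 1 / 2 := by
      calc Real.exp (-((1 / 2) ^ i * t)) ≤ Real.exp (-1) := Real.exp_le_exp.2 (by linarith)
        _ = (Real.exp 1)⁻¹ := Real.exp_neg 1
        _ ≤ (2 : ℝ)⁻¹ := by
          refine inv_anti₀ (by norm_num) ?_
          have := Real.add_one_le_exp (1 : ℝ)
          linarith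
        _ = 1 / 2 := by norm_num
    have e4 : t ^ θ ≤ 2 * a ^ i := by
      calc t ^ θ ≤ ((2 : ℝ) ^ (i + 1)) ^ θ := Real.rpow_le_rpow ht0.le hi2.le h0.le
        _ = a * a ^ i := by rw [← hai, pow_succ']
        _ ≤ 2 * a ^ i := by
          refine mul_le_mul_of_nonneg_right ?_ (by positivity)
          calc a = (2 : ℝ) ^ θ := rfl
            _ ≤ (2 : ℝ) ^ (1 : ℝ) := Real.rpow_le_rpow_of_exponent_le (by norm_num) h1.le
            _ = 2 := Real.rpow_one 2
    have e5 : a ^ i * (1 / 2) ≤ a ^ i * (1 - Real.exp (-((1 / 2) ^ i * t))) :=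
      mul_le_mul_of_nonneg_left (by linarith) (by positivity)
    linarith
  · have hsplit : ∑ j ∈ range (J + 1), a ^ j * (1 - Real.exp (-((1 / 2) ^ j * t))) ≤
        ∑ j ∈ range (i + 1), a ^ j + t * ∑ j ∈ Finset.Ico (i + 1) (J + 1), c ^ j := by
      rw [← Finset.sum_range_add_sum_Ico _ (show i + 1 ≤ J + 1 by omega), Finset.mul_sum]
      refine add_le_add (Finset.sum_le_sum fun j _ => ?_) (Finset.sum_le_sum fun j _ => ?_)
      · refine mul_le_of_le_one_right (by positivity) ?_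
        have := Real.exp_pos (-((1 / 2) ^ j * t))
        linarith
      · have e1 : 1 - Real.exp (-((1 / 2) ^ j * t)) ≤ (1 / 2) ^ j * t := by
          have := Real.add_one_le_exp (-((1 / 2 : ℝ) ^ j * t))
          linarith
        have e2 : a ^ j * (1 / 2) ^ j = c ^ j := by
          rw [← mul_pow]
          congr 1
          rw [ha, hc, Real.rpow_sub (by norm_num), Real.rpow_one]
          ring
        calc a ^ j * (1 - Real.exp (-((1 / 2) ^ j * t))) ≤ a ^ j * ((1 / 2) ^ j * t) :=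
              mul_le_mul_of_nonneg_left e1 (by positivity)
          _ = t * c ^ j := by rw [← mul_assoc, e2, mul_comm]
    have e1 : ∑ j ∈ range (i + 1), a ^ j ≤ a / (a - 1) * t ^ θ := by
      refine (geo_up ha1 i).trans (mul_le_mul_of_nonneg_left ?_ ?_)
      · rw [hai]
        exact Real.rpow_le_rpow (by positivity) hi1 h0.le
      · have : 0 < a - 1 := by linarith
        positivity
    have e2 : t * ∑ j ∈ Finset.Ico (i + 1) (J + 1), c ^ j ≤ 1 / (1 - c) * t ^ θ := by
      have f1 := geo_down hb0 hb1 (i + 1) (J + 1)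
      have f2 : c ^ (i + 1) ≤ t ^ (θ - 1) := by
        rw [hci]
        exact Real.rpow_le_rpow_of_nonpos ht0 hi2.le (by linarith)
      have f3 : (0 : ℝ) < 1 - c := by linarith
      calc t * ∑ j ∈ Finset.Ico (i + 1) (J + 1), c ^ j ≤ t * (c ^ (i + 1) / (1 - c)) :=
            mul_le_mul_of_nonneg_left f1 ht0.le
        _ ≤ t * (t ^ (θ - 1) / (1 - c)) :=
            mul_le_mul_of_nonneg_left ((div_le_div_iff_of_pos_right f3).2 f2) ht0.le
        _ = 1 / (1 - c) * t ^ θ := by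
          rw [Real.rpow_sub_one ht0.ne']
          field_simp
    linarith

/-- A combination of cut semimetrics is a squared Hilbert distance. -/
theorem IsCut.exists_hilbert {d : X → X → ℝ} (hd : IsCut d) :
    ∃ (N : ℕ) (F : X → EuclideanSpace ℝ (Fin N)), ∀ x y, ‖F x - F y‖ ^ 2 = d x y := by
  classical
  obtain ⟨K, _, w, S, hw, hd⟩ := hd
  let e : K ≃ Fin (Fintype.card K) := Fintype.equivFin K
  refine ⟨Fintype.card K, fun x => WithLp.toLp 2 fun i =>
    Real.sqrt (w (e.symm i)) * (if S (e.symm i) x then 1 else 0), fun x y => ?_⟩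
  rw [EuclideanSpace.norm_sq_eq, hd, ← Equiv.sum_comp e.symm]
  refine Finset.sum_congr rfl fun i _ => ?_
  simp only [PiLp.sub_apply]
  rw [← mul_sub, Real.norm_eq_abs, sq_abs, mul_pow, Real.sq_sqrt (hw _)]
  congr 1
  by_cases h3 : S (e.symm i) x <;> by_cases h4 : S (e.symm i) y <;> simp [h3, h4]

end Vale.Agent.P238.H360
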