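import Vale.Agent.P238.H360.Top
import Vale.Agent.P238.H360.Snow
import Vale.Agent.P238.H360.Defs
import Mathlib.Data.Set.Finite.List

/-!
# P238 / H360 / Fin : asymptotic form of the upper bound, comparison of the alphabets
-/

set_option autoImplicit false

namespace Vale.Agent.P238.H360

open Finset Vale.Agent.P238 Vale.Agent.P238.Full

theorem upToED_pos {α : Type} {n : ℕ} {x y : {l : List α // l.length ≤ n}} (h : x ≠ y) :
    1 ≤ upToED α n x y := by
  unfold upToED
  have h1 : ED x.1 y.1 ≠ 0 := fun h0 => h (Subtype.ext (ED_eq_zero h0))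
  exact_mod_cast Nat.one_le_iff_ne_zero.2 h1

theorem upToED_le {α : Type} {n : ℕ} (x y : {l : List α // l.length ≤ n}) :
    upToED α n x y ≤ n := by
  unfold upToED
  have h1 := ED_le_max x.1 y.1
  have h2 := x.2
  have h3 := y.2
  exact_mod_cast (by omega : ED x.1 y.1 ≤ n)

/-- The embedding of all words of length at most `n`. -/
theorem upto_cut {α : Type} [Fintype α] {n b k : ℕ} (hn : 1 ≤ n)
    (hb : 1 ≤ b) (h2 : 2 * n ≤ b ^ k) :
    ∃ d : {l : List α // l.length ≤ n} → {l : List α // l.length ≤ n} → ℝ, IsCut d ∧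
      ∀ x y, upToED α n x y ≤ d x y ∧
        d x y ≤ b * (108 * ((Nat.log 2 (b ^ k) + 1 : ℕ) : ℝ) ^ 2) ^ k * upToED α n x y := by
  classical
  obtain ⟨d, hd⟩ := iter (A := Option α) hb k le_rfl (2 * n) h2
  refine ⟨fun x y => d (pad none (x.1.map some)) (pad none (y.1.map some)),
    hd.cut.comap fun x : {l : List α // l.length ≤ n} => pad none (x.1.map some),
    fun x y => ⟨?_, ?_⟩⟩
  · have h3 : ∀ z : {l : List α // l.length ≤ n},
        (pre (pad none (z.1.map some)) (2 * n)).filterMap id = z.1 := by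
      intro z
      have h4 := pre_pad none (z.1.map some) (2 * n - z.1.length)
      have h5 := z.2
      rw [List.length_map, show z.1.length + (2 * n - z.1.length) = 2 * n by omega] at h4
      rw [h4, List.filterMap_append]
      have h6 : (List.replicate (2 * n - z.1.length) (none : Option α)).filterMap id = [] := by
        rw [List.filterMap_eq_nil_iff]
        intro a ha
        exact List.eq_of_mem_replicate ha
      rw [h6, List.append_nil, List.filterMap_map]
      simp
    have h1 := ED_filterMap_le id (pre (pad none (x.1.map some)) (2 * n))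
      (pre (pad none (y.1.map some)) (2 * n))
    rw [h3, h3] at h1
    calc upToED α n x y ≤ (ED (pre (pad none (x.1.map some)) (2 * n))
          (pre (pad none (y.1.map some)) (2 * n)) : ℝ) := by
          unfold upToED
          exact_mod_cast h1
      _ ≤ _ := hd.lb _ _
  · have h1 := ED_le_max (x.1.map some) (y.1.map some)
    rw [List.length_map, List.length_map] at h1
    have h5 := steps_pad hd (by omega) none (ED_steps (x.1.map some) (y.1.map some))
      (by rw [List.length_map]; have := x.2; have := y.2; omega)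
    refine h5.trans (mul_le_mul_of_nonneg_left ?_ (by positivity))
    unfold upToED
    exact_mod_cast ED_map_le some x.1 y.1

/-- The explicit upper bound for all words of length at most `n`. -/
theorem upto_upper {α : Type} [Fintype α] {n b k : ℕ} (hn : 1 ≤ n)
    (hb : 1 ≤ b) (h2 : 2 * n ≤ b ^ k) :
    c1 (upToED α n) ≤ b * (108 * ((Nat.log 2 (b ^ k) + 1 : ℕ) : ℝ) ^ 2) ^ k := by
  obtain ⟨d, hd, h⟩ := upto_cut (α := α) hn hb h2
  exact c1_le hd (by positivity) (fun x y hxy => zero_lt_one.trans_le (upToED_pos hxy))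
    (fun x y => (h x y).1) (fun x y => (h x y).2)

/-! ### restriction to a subspace -/

theorem distortion_restrict {X Y : Type} [Finite X] {ρ : X → X → ℝ} {ρ' : Y → Y → ℝ} (e : Y → X)
    (he : Function.Injective e) (hρ : ∀ x y, ρ (e x) (e y) = ρ' x y)
    (hnn : ∀ x y, 0 ≤ ρ x y) (f : X → lp (fun _ : ℕ => ℝ) 1) :
    distortion ρ' (fun y => f (e y)) ≤ distortion ρ f := by
  unfold distortion
  have hb1 : BddAbove (Set.range fun p : {p : X × X // p.1 ≠ p.2} =>
      ‖f p.1.1 - f p.1.2‖ / ρ p.1.1 p.1.2) := (Set.finite_range _).bddAbove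
  have hb2 : BddAbove (Set.range fun p : {p : X × X // p.1 ≠ p.2} =>
      ρ p.1.1 p.1.2 / ‖f p.1.1 - f p.1.2‖) := (Set.finite_range _).bddAbove
  have hn1 : 0 ≤ (⨆ p : {p : X × X // p.1 ≠ p.2}, ‖f p.1.1 - f p.1.2‖ / ρ p.1.1 p.1.2) :=
    Real.iSup_nonneg fun p => div_nonneg (norm_nonneg _) (hnn _ _)
  have hn2 : 0 ≤ (⨆ p : {p : X × X // p.1 ≠ p.2}, ρ p.1.1 p.1.2 / ‖f p.1.1 - f p.1.2‖) :=
    Real.iSup_nonneg fun p => div_nonneg (hnn _ _) (norm_nonneg _)
  refine mul_le_mul ?_ ?_ ?_ hn1
  · refine Real.iSup_le (fun p => ?_) hn1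
    have h1 := le_ciSup hb1 ⟨(e p.1.1, e p.1.2), fun h => p.2 (he h)⟩
    rw [← hρ]
    exact h1
  · refine Real.iSup_le (fun p => ?_) hn2
    have h1 := le_ciSup hb2 ⟨(e p.1.1, e p.1.2), fun h => p.2 (he h)⟩
    rw [← hρ]
    exact h1
  · exact Real.iSup_nonneg fun p => div_nonneg (by rw [← hρ]; exact hnn _ _) (norm_nonneg _)

theorem c1_restrict {X Y : Type} [Finite X] {ρ : X → X → ℝ} {ρ' : Y → Y → ℝ} (e : Y → X)
    (he : Function.Injective e) (hρ : ∀ x y, ρ (e x) (e y) = ρ' x y)
    (hnn : ∀ x y, 0 ≤ ρ x y) : c1 ρ' ≤ c1 ρ := by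
  classical
  have := Fintype.ofFinite X
  have : Nonempty {f : X → lp (fun _ : ℕ => ℝ) 1 // Function.Injective f} := by
    refine ⟨⟨fun x => lp.single 1 0 ((Fintype.equivFin X x : ℕ) : ℝ), ?_⟩⟩
    intro x y hxy
    have h1 := congrArg (fun g : lp (fun _ : ℕ => ℝ) 1 => g 0) hxy
    simp only [lp.single_apply_self] at h1
    exact (Fintype.equivFin X).injective (Fin.ext (by exact_mod_cast h1))
  have hbdd : BddBelow (Set.range fun f : {f : Y → lp (fun _ : ℕ => ℝ) 1 // Function.Injective f} =>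
      distortion ρ' f.1) := by
    refine ⟨0, ?_⟩
    rintro _ ⟨g, rfl⟩
    exact mul_nonneg (Real.iSup_nonneg fun p => div_nonneg (norm_nonneg _)
      (by rw [← hρ]; exact hnn _ _)) (Real.iSup_nonneg fun p => div_nonneg
      (by rw [← hρ]; exact hnn _ _) (norm_nonneg _))
  refine le_ciInf fun f => ?_
  exact (ciInf_le hbdd ⟨fun y => f.1 (e y), f.2.comp he⟩).trans
    (distortion_restrict e he hρ hnn f.1)

/-- words of length `n` sit in the words of length `≤ n` -/
theorem word_le_upto (α : Type) [Finite α] (n : ℕ) : c1 (wordED α n) ≤ c1 (upToED α n) := by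
  have : Finite {l : List α // l.length ≤ n} := (List.finite_length_le α n).to_subtype
  refine c1_restrict (fun x : Fin n → α => (⟨List.ofFn x, by simp⟩ : {l : List α // l.length ≤ n}))
    (fun x y h => ?_) (fun x y => rfl) (fun x y => Nat.cast_nonneg _)
  exact List.ofFn_injective (congrArg Subtype.val h)

/-- binary words sit in the words over any larger alphabet -/
theorem bin_embed (α : Type) [Nontrivial α] (n : ℕ) :
    ∃ e : (Fin n → Bool) → Fin n → α, Function.Injective e ∧
      ∀ x y, wordED α n (e x) (e y) = binED n x y := by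
  classical
  obtain ⟨a, b, hab⟩ := exists_pair_ne α
  let e : Bool → α := fun t => if t then a else b
  let r : α → Bool := fun c => decide (c = a)
  have hre : ∀ t, r (e t) = t := by
    intro t
    cases t
    · simp [r, e, hab.symm]
    · simp [r, e]
  refine ⟨fun x : Fin n → Bool => fun i => e (x i), fun x y h => ?_, fun x y => ?_⟩
  · funext i
    have h1 := congrArg r (congrFun h i)
    simp only at h1
    rwa [hre, hre] at h1
  · have h1 : ∀ z : Fin n → Bool, List.ofFn (fun i => e (z i)) = (List.ofFn z).map e := by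
      intro z
      rw [List.map_ofFn]
      rfl
    have h2 : ∀ z : Fin n → Bool, ((List.ofFn z).map e).map r = List.ofFn z := by
      intro z
      rw [List.map_map]
      conv_rhs => rw [← List.map_id (List.ofFn z)]
      exact List.map_congr_left fun t _ => hre t
    unfold wordED binED
    rw [h1, h1]
    have h3 := ED_map_le e (List.ofFn x) (List.ofFn y)
    have h4 := ED_map_le r ((List.ofFn x).map e) ((List.ofFn y).map e)
    rw [h2, h2] at h4
    exact_mod_cast le_antisymm h3 h4

/-! ### asymptotic form -/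

theorem loglog_ge {n : ℕ} (hn : 16 ≤ n) : 1 ≤ Real.log (Real.log n) ∧
    Real.log (Real.log n) ≤ Real.log n := by
  have h1 : Real.exp 1 ≤ Real.log n := by
    have h2 : Real.log 16 ≤ Real.log n := Real.log_le_log (by norm_num) (by exact_mod_cast hn)
    have h3 : Real.log 16 = 4 * Real.log 2 := by
      rw [show (16 : ℝ) = 2 ^ 4 by norm_num, Real.log_pow]; norm_num
    have h4 := Real.log_two_gt_d9
    have h5 := Real.exp_one_lt_d9
    linarith
  have h0 : 0 < Real.log n := (Real.exp_pos 1).trans_le h1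
  constructor
  · rw [Real.le_log_iff_exp_le h0]
    exact h1
  · exact (Real.log_le_sub_one_of_pos h0).trans (by linarith)

theorem params {n : ℕ} (hn : 16 ≤ n) : ∃ b k : ℕ, 1 ≤ b ∧ 2 * n ≤ b ^ k ∧
    b * (108 * ((Nat.log 2 (b ^ k) + 1 : ℕ) : ℝ) ^ 2) ^ k ≤
      Real.exp (38 * Real.sqrt (Real.log n * Real.log (Real.log n))) := by
  obtain ⟨hl1, hl2⟩ := loglog_ge hn
  set L := Real.log n with hL
  set l := Real.log L with hl
  set s := Real.sqrt (L * l) with hs
  have hL1 : 1 ≤ L := hl1.trans hl2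
  have hL0 : 0 < L := by linarith
  have hs2 : s ^ 2 = L * l := Real.sq_sqrt (by positivity)
  have hs0 : 0 ≤ s := Real.sqrt_nonneg _
  have hsl : l ≤ s := by
    refine le_of_sq_le_sq ?_ hs0
    nlinarith
  have hs1 : 1 ≤ s := hl1.trans hsl
  have hspos : 0 < s := by linarith
  have hn0 : (0 : ℝ) < n := by exact_mod_cast (by omega : 0 < n)
  -- the parameters
  set b := ⌈Real.exp s⌉₊ with hb
  have hb1 : Real.exp s ≤ b := Nat.le_ceil _
  have hb0 : (0 : ℝ) < b := (Real.exp_pos _).trans_le hb1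
  have hb2 : (b : ℝ) ≤ Real.exp (2 * s) := by
    have h1 : (b : ℝ) < Real.exp s + 1 := Nat.ceil_lt_add_one (Real.exp_pos _).le
    have h2 : (2 : ℝ) ≤ Real.exp s := by
      have := Real.add_one_le_exp s
      linarith
    have h3 : Real.exp (2 * s) = Real.exp s * Real.exp s := by
      rw [← Real.exp_add]; ring_nf
    rw [h3]
    nlinarith
  have hbn : 1 ≤ b := by exact_mod_cast (by linarith [Real.add_one_le_exp s] : (1 : ℝ) ≤ b)
  set k := ⌈2 * L / s⌉₊ with hk
  have hk1 : 2 * L / s ≤ k := Nat.le_ceil _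
  have hk2 : (k : ℝ) * l ≤ 3 * s := by
    have h1 : (k : ℝ) < 2 * L / s + 1 := Nat.ceil_lt_add_one (by positivity)
    have h2 : L / s * l = s := by
      rw [div_mul_eq_mul_div, div_eq_iff hspos.ne', ← hs2]; ring
    have h3 : (2 * L / s + 1) * l = 2 * s + l := by
      rw [add_mul, one_mul, mul_div_assoc, mul_assoc, h2]
    have h4 : (k : ℝ) * l ≤ (2 * L / s + 1) * l := mul_le_mul_of_nonneg_right h1.le (by linarith)
    linarith
  have hks : 2 * L ≤ k * s := by
    rw [div_le_iff₀ hspos] at hk1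
    exact hk1
  -- size of `b ^ k`
  have hN1 : 2 * n ≤ b ^ k := by
    have h1 : Real.exp (2 * L) ≤ (b : ℝ) ^ k := by
      calc Real.exp (2 * L) ≤ Real.exp (k * s) := Real.exp_le_exp.2 hks
        _ = Real.exp s ^ k := by rw [← Real.exp_nat_mul]
        _ ≤ (b : ℝ) ^ k := pow_le_pow_left₀ (Real.exp_pos _).le hb1 k
    have h2 : Real.exp (2 * L) = (n : ℝ) * n := by
      rw [two_mul, Real.exp_add, hL, Real.exp_log hn0]
    have h3 : (2 : ℝ) * n ≤ (b : ℝ) ^ k := by
      have : (2 : ℝ) ≤ n := by exact_mod_cast (by omega : 2 ≤ n)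
      nlinarith
    exact_mod_cast h3
  have hlogN : Real.log ((b ^ k : ℕ) : ℝ) ≤ 6 * L := by
    push_cast
    rw [Real.log_pow]
    have h1 : Real.log b ≤ 2 * s := by
      rw [← Real.log_exp (2 * s)]
      exact Real.log_le_log hb0 hb2
    have h2 : (k : ℝ) * Real.log b ≤ k * (2 * s) :=
      mul_le_mul_of_nonneg_left h1 (Nat.cast_nonneg _)
    -- k s l ≤ 3 s ^ 2 = 3 L l
    have h3 : (k : ℝ) * s ≤ 3 * L := by
      have h4 : (k : ℝ) * s * l ≤ 3 * L * l := by nlinarith
      exact le_of_mul_le_mul_right h4 (by linarith)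
    linarith
  have hg : ((Nat.log 2 (b ^ k) + 1 : ℕ) : ℝ) ≤ 10 * L := by
    have h0 : b ^ k ≠ 0 := by omega
    have h1 : ((2 ^ Nat.log 2 (b ^ k) : ℕ) : ℝ) ≤ ((b ^ k : ℕ) : ℝ) := by
      exact_mod_cast Nat.pow_log_le_self 2 h0
    have h2 := Real.log_le_log (by positivity) h1
    push_cast at h2
    rw [Real.log_pow] at h2
    have h3 := Real.log_two_gt_d9
    have h4 : (Nat.log 2 (b ^ k) : ℝ) * Real.log 2 ≤ 6 * L := by
      refine h2.trans ?_
      have := hlogN
      push_cast at this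
      exact this
    have h5 : (0 : ℝ) ≤ Nat.log 2 (b ^ k) := Nat.cast_nonneg _
    push_cast
    nlinarith
  refine ⟨b, k, hbn, hN1, ?_⟩
  have hbase : 108 * ((Nat.log 2 (b ^ k) + 1 : ℕ) : ℝ) ^ 2 ≤ Real.exp (12 * l) := by
    have h1 : 108 * ((Nat.log 2 (b ^ k) + 1 : ℕ) : ℝ) ^ 2 ≤ 10800 * L ^ 2 := by
      have h0 : (0 : ℝ) ≤ ((Nat.log 2 (b ^ k) + 1 : ℕ) : ℝ) := Nat.cast_nonneg _
      nlinarith
    have h2 : (10800 : ℝ) ≤ Real.exp (10 * l) := by
      have h3 : (2.7 : ℝ) ≤ Real.exp 1 := by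
        have := Real.exp_one_gt_d9
        linarith
      calc (10800 : ℝ) ≤ 2.7 ^ 10 := by norm_num
        _ ≤ Real.exp 1 ^ 10 := pow_le_pow_left₀ (by norm_num) h3 10
        _ = Real.exp 10 := by rw [← Real.exp_nat_mul]; norm_num
        _ ≤ _ := Real.exp_le_exp.2 (by linarith)
    have h3 : L ^ 2 = Real.exp (2 * l) := by
      rw [two_mul, Real.exp_add, hl, Real.exp_log hL0, sq]
    calc _ ≤ 10800 * L ^ 2 := h1
      _ ≤ Real.exp (10 * l) * Real.exp (2 * l) := by
        rw [h3]
        exact mul_le_mul_of_nonneg_right h2 (Real.exp_pos _).le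
      _ = Real.exp (12 * l) := by rw [← Real.exp_add]; ring_nf
  calc (b : ℝ) * (108 * ((Nat.log 2 (b ^ k) + 1 : ℕ) : ℝ) ^ 2) ^ k
      ≤ Real.exp (2 * s) * Real.exp (12 * l) ^ k :=
        mul_le_mul hb2 (pow_le_pow_left₀ (by positivity) hbase k) (by positivity)
          (Real.exp_pos _).le
    _ = Real.exp (2 * s + 12 * (k * l)) := by
        rw [← Real.exp_nat_mul, ← Real.exp_add]
        ring_nf
    _ ≤ _ := Real.exp_le_exp.2 (by linarith)

theorem rate_ge {n : ℕ} (hn : 16 ≤ n) :
    1 ≤ Real.sqrt (Real.log n * Real.log (Real.log n)) := by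
  obtain ⟨h1, h2⟩ := loglog_ge hn
  rw [Real.one_le_sqrt]
  nlinarith

/-- The embedding of all words of length at most `n`, asymptotic form. -/
theorem upto_asymp (α : Type) [Finite α] {n : ℕ} (hn : 16 ≤ n) :
    ∃ d : {l : List α // l.length ≤ n} → {l : List α // l.length ≤ n} → ℝ, IsCut d ∧
      ∀ x y, upToED α n x y ≤ d x y ∧
        d x y ≤ Real.exp (38 * Real.sqrt (Real.log n * Real.log (Real.log n))) *
          upToED α n x y := by
  have := Fintype.ofFinite α
  obtain ⟨b, k, hb, h2, h3⟩ := params hn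
  obtain ⟨d, hd, h⟩ := upto_cut (α := α) (by omega) hb h2
  exact ⟨d, hd, fun x y => ⟨(h x y).1, (h x y).2.trans
    (mul_le_mul_of_nonneg_right h3 (Nat.cast_nonneg _))⟩⟩

/-- Snowflakes of the edit distance: the embedding. -/
theorem upto_snow {θ : ℝ} (h0 : 0 < θ) (h1 : θ ≤ 1) : ∃ C : ℝ, 0 ≤ C ∧
    ∀ (α : Type) [Finite α] (n : ℕ), 16 ≤ n →
    ∃ e : {l : List α // l.length ≤ n} → {l : List α // l.length ≤ n} → ℝ, IsCut e ∧
      ∀ x y, upToED α n x y ^ θ ≤ e x y ∧
        e x y ≤ Real.exp (C * Real.sqrt (Real.log n * Real.log (Real.log n))) *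
          upToED α n x y ^ θ := by
  obtain ⟨K, hK1, hK⟩ := snow h0 h1
  have hlK : 0 ≤ Real.log K := Real.log_nonneg hK1
  refine ⟨38 + Real.log K, by linarith, fun α _ n hn => ?_⟩
  set s := Real.sqrt (Real.log n * Real.log (Real.log n)) with hs
  have hs1 : 1 ≤ s := rate_ge hn
  obtain ⟨d, hd, h⟩ := upto_asymp α hn
  rw [← hs] at h
  have hz : ∀ x y, d x y = 0 ∨ 1 ≤ d x y := by
    intro x y
    by_cases hxy : x = y
    · left
      rw [hxy, hd.self]
    · right
      exact (upToED_pos hxy).trans (h x y).1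
  have hT : ∃ T : ℝ, ∀ x y, d x y ≤ T := ⟨Real.exp (38 * s) * n, fun x y =>
    (h x y).2.trans (mul_le_mul_of_nonneg_left (upToED_le x y) (Real.exp_pos _).le)⟩
  obtain ⟨e, he, hee⟩ := hK _ d hd hz hT
  · refine ⟨e, he, fun x y => ⟨?_, ?_⟩⟩
    · exact (Real.rpow_le_rpow (Nat.cast_nonneg _) (h x y).1 h0.le).trans (hee x y).1
    · have e1 : d x y ^ θ ≤ Real.exp (38 * s) * upToED α n x y ^ θ := by
        calc d x y ^ θ ≤ (Real.exp (38 * s) * upToED α n x y) ^ θ :=
              Real.rpow_le_rpow (hd.nonneg x y) (h x y).2 h0.le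
          _ = Real.exp (38 * s) ^ θ * upToED α n x y ^ θ :=
              Real.mul_rpow (Real.exp_pos _).le (Nat.cast_nonneg _)
          _ ≤ _ := by
              refine mul_le_mul_of_nonneg_right ?_ (Real.rpow_nonneg (Nat.cast_nonneg _) _)
              calc Real.exp (38 * s) ^ θ ≤ Real.exp (38 * s) ^ (1 : ℝ) :=
                    Real.rpow_le_rpow_of_exponent_le (Real.one_le_exp (by linarith)) h1
                _ = _ := Real.rpow_one _
      calc e x y ≤ K * d x y ^ θ := (hee x y).2
        _ ≤ K * (Real.exp (38 * s) * upToED α n x y ^ θ) :=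
            mul_le_mul_of_nonneg_left e1 (by linarith)
        _ = (K * Real.exp (38 * s)) * upToED α n x y ^ θ := by ring
        _ ≤ _ := by
            refine mul_le_mul_of_nonneg_right ?_ (Real.rpow_nonneg (Nat.cast_nonneg _) _)
            have e2 : K = Real.exp (Real.log K) := (Real.exp_log (by linarith)).symm
            calc K * Real.exp (38 * s) = Real.exp (Real.log K + 38 * s) := by
                  rw [Real.exp_add, ← e2]
              _ ≤ _ := Real.exp_le_exp.2 (by nlinarith)

end Vale.Agent.P238.H360
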