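import Vale.Agent.P238.H142.Final
import Vale.Agent.P238.H360.Fin
import Vale.Agent.P238.H360.Snow

/-!
# P238 / H360 / Main : both bounds
-/

set_option autoImplicit false

namespace Vale.Agent.P238.H360

open Finset Filter Asymptotics Vale.Agent.P238 Vale.Agent.P238.Full

/-- lower bounds for binary words (H142) -/
theorem bin_lower {θ : ℝ} (h0 : 0 < θ) (h1 : θ ≤ 1) : ∃ c : ℝ, 0 < c ∧ ∃ n₀ : ℕ, ∀ n : ℕ, n₀ ≤ n →
    Real.exp (c * Real.sqrt (Real.log n * Real.log (Real.log n))) ≤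
      c1 (fun x y => binED n x y ^ θ) ∧
    ∀ (H : Type) [NormedAddCommGroup H] [InnerProductSpace ℝ H]
      (F : (Fin n → Bool) → H) (A B : ℝ),
      (∀ x y, A * binED n x y ^ θ ≤ ‖F x - F y‖ ^ 2 ∧ ‖F x - F y‖ ^ 2 ≤ B * binED n x y ^ θ) →
      A * Real.exp (c * Real.sqrt (Real.log n * Real.log (Real.log n))) ≤ B := by
  classical
  obtain ⟨N₀, π, hπ, hmain⟩ := H142.main_neg
  obtain ⟨c, hc, n₀, hn₀, h⟩ := hmain θ h0 h1
  refine ⟨c, hc, n₀ + 1, fun n hn => ?_⟩
  have hn1 : 1 ≤ n := by omega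
  obtain ⟨p0, p1, p2⟩ := hπ n (hn₀.trans (by omega))
  constructor
  · have := H142.c1_of_pi h0 (Real.exp_pos _) p0 p1 p2 (h n (by omega))
    rwa [Real.exp_neg, inv_inv] at this
  · intro H _ _ F A B hAB
    have hB : 0 ≤ B := H142.const_nonneg hn1 (fun x y => by positivity) (fun x y => (hAB x y).2)
    exact H142.dist_of_pi p0 p1 p2
      (h n (by omega) _ (H474.neg_sq F) B hB (fun x y => (hAB x y).2))
      (fun x y => (hAB x y).1)

theorem rpow_nonneg' {α : Type} {n : ℕ} {θ : ℝ} (x y : Fin n → α) : 0 ≤ wordED α n x y ^ θ :=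
  Real.rpow_nonneg (Nat.cast_nonneg _) _

/-- Both bounds, all finite alphabets, all snowflakes. -/
theorem both {θ : ℝ} (h0 : 0 < θ) (h1 : θ ≤ 1) : ∃ c C : ℝ, 0 < c ∧ ∃ n₀ : ℕ,
    ∀ (α : Type) [Finite α] [Nontrivial α] (n : ℕ), n₀ ≤ n →
      Real.exp (c * Real.sqrt (Real.log n * Real.log (Real.log n))) ≤
        c1 (fun x y => wordED α n x y ^ θ) ∧
      c1 (fun x y => wordED α n x y ^ θ) ≤ c1 (fun x y => upToED α n x y ^ θ) ∧
      c1 (fun x y => upToED α n x y ^ θ) ≤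
        Real.exp (C * Real.sqrt (Real.log n * Real.log (Real.log n))) ∧
      (∀ (H : Type) [NormedAddCommGroup H] [InnerProductSpace ℝ H]
        (F : (Fin n → α) → H) (A B : ℝ),
        (∀ x y, A * wordED α n x y ^ θ ≤ ‖F x - F y‖ ^ 2 ∧
          ‖F x - F y‖ ^ 2 ≤ B * wordED α n x y ^ θ) →
        A * Real.exp (c * Real.sqrt (Real.log n * Real.log (Real.log n))) ≤ B) ∧
      ∃ (N : ℕ) (F : {l : List α // l.length ≤ n} → EuclideanSpace ℝ (Fin N)),
        ∀ x y, upToED α n x y ^ θ ≤ ‖F x - F y‖ ^ 2 ∧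
          ‖F x - F y‖ ^ 2 ≤ Real.exp (C * Real.sqrt (Real.log n * Real.log (Real.log n))) *
            upToED α n x y ^ θ := by
  classical
  obtain ⟨c, hc, n₀, hlow⟩ := bin_lower h0 h1
  obtain ⟨C, hC, hup⟩ := upto_snow h0 h1
  refine ⟨c, C, hc, max n₀ 16, fun α _ _ n hn => ?_⟩
  have hn0 : n₀ ≤ n := (le_max_left _ _).trans hn
  have hn16 : 16 ≤ n := (le_max_right _ _).trans hn
  obtain ⟨hl1, hl2⟩ := hlow n hn0
  obtain ⟨e, he, hee⟩ := hup α n hn16
  obtain ⟨emb, hemb, hiso⟩ := bin_embed α n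
  have hfin : Finite {l : List α // l.length ≤ n} := (List.finite_length_le α n).to_subtype
  refine ⟨?_, ?_, ?_, ?_, ?_⟩
  · refine hl1.trans (c1_restrict (ρ := fun x y => wordED α n x y ^ θ) emb hemb
      (fun x y => ?_) fun x y => Real.rpow_nonneg (Nat.cast_nonneg _) _)
    show wordED α n (emb x) (emb y) ^ θ = _
    rw [hiso]
  · refine c1_restrict (ρ := fun x y => upToED α n x y ^ θ)
      (fun x : Fin n → α => (⟨List.ofFn x, by simp⟩ : {l : List α // l.length ≤ n}))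
      (fun x y h => ?_) (fun x y => rfl) (fun x y => Real.rpow_nonneg (Nat.cast_nonneg _) _)
    exact List.ofFn_injective (congrArg Subtype.val h)
  · exact c1_le he (Real.exp_pos _).le (fun x y hxy => Real.rpow_pos_of_pos
      (zero_lt_one.trans_le (upToED_pos hxy)) _) (fun x y => (hee x y).1) (fun x y => (hee x y).2)
  · intro H _ _ F A B hAB
    refine hl2 H (fun x => F (emb x)) A B fun x y => ?_
    have h3 := hAB (emb x) (emb y)
    rwa [hiso] at h3
  · obtain ⟨N, F, hF⟩ := he.exists_hilbert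
    exact ⟨N, F, fun x y => by rw [hF]; exact hee x y⟩

/-- The growth of `c₁({0,1}^n, ED)`. -/
theorem growth : (fun n : ℕ => Real.log (c1 (binED n))) =Θ[atTop]
    fun n : ℕ => Real.sqrt (Real.log n * Real.log (Real.log n)) := by
  obtain ⟨c, C, hc, n₀, h⟩ := both zero_lt_one le_rfl
  have h' : ∀ n, n₀ ≤ n → Real.exp (c * Real.sqrt (Real.log n * Real.log (Real.log n))) ≤
      c1 (binED n) ∧ c1 (binED n) ≤
      Real.exp (C * Real.sqrt (Real.log n * Real.log (Real.log n))) := by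
    intro n hn
    obtain ⟨h1, h2, h3, _⟩ := h Bool n hn
    simp only [Real.rpow_one] at h1 h2 h3
    exact ⟨h1, h2.trans h3⟩
  have hlog : ∀ n, n₀ ≤ n → c * Real.sqrt (Real.log n * Real.log (Real.log n)) ≤
      Real.log (c1 (binED n)) ∧ Real.log (c1 (binED n)) ≤
      C * Real.sqrt (Real.log n * Real.log (Real.log n)) := by
    intro n hn
    obtain ⟨h1, h2⟩ := h' n hn
    have hpos : 0 < c1 (binED n) := (Real.exp_pos _).trans_le h1
    exact ⟨(Real.le_log_iff_exp_le hpos).2 h1, (Real.log_le_iff_le_exp hpos).2 h2⟩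
  constructor
  · refine IsBigO.of_bound C ?_
    filter_upwards [eventually_ge_atTop n₀] with n hn
    obtain ⟨h1, h2⟩ := hlog n hn
    have h3 : 0 ≤ Real.log (c1 (binED n)) :=
      (mul_nonneg hc.le (Real.sqrt_nonneg _)).trans h1
    rw [Real.norm_eq_abs, Real.norm_eq_abs, abs_of_nonneg h3, abs_of_nonneg (Real.sqrt_nonneg _)]
    exact h2
  · refine IsBigO.of_bound c⁻¹ ?_
    filter_upwards [eventually_ge_atTop n₀] with n hn
    obtain ⟨h1, h2⟩ := hlog n hn
    have h3 : 0 ≤ Real.log (c1 (binED n)) :=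
      (mul_nonneg hc.le (Real.sqrt_nonneg _)).trans h1
    rw [Real.norm_eq_abs, Real.norm_eq_abs, abs_of_nonneg h3, abs_of_nonneg (Real.sqrt_nonneg _),
      ← div_eq_inv_mul, le_div_iff₀ hc, mul_comm]
    exact h1

end Vale.Agent.P238.H360
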