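import Vale.Agent.P238.Bdl.B1
import Vale.Agent.P238.H360.Cut

/-!
# P238 / H360 / Rec : the recursive embedding of words
-/

set_option autoImplicit false

namespace Vale.Agent.P238.H360

open Finset Vale.Agent.P238 Vale.Agent.P238.Full

variable {A : Type}

/-- the first `l` letters -/
def pre (x : ℕ → A) (l : ℕ) : List A := (List.range l).map x

/-- the sequence without its first `g` letters -/
def sh (g : ℕ) (x : ℕ → A) : ℕ → A := fun t => x (g + t)

theorem pre_length (x : ℕ → A) (l : ℕ) : (pre x l).length = l := by simp [pre]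

theorem pre_add (x : ℕ → A) (a b : ℕ) : pre x (a + b) = pre x a ++ pre (sh a x) b := by
  unfold pre sh
  rw [List.range_add, List.map_append, List.map_map]
  rfl

theorem pre_congr {x y : ℕ → A} {l : ℕ} (h : ∀ t < l, x t = y t) : pre x l = pre y l := by
  unfold pre
  exact List.map_congr_left fun t ht => h t (List.mem_range.1 ht)

/-- `y` arises from `x` by deleting the letter at `p` and inserting one at `q` (first `l` letters) -/
def Sh (l p q : ℕ) (x y : ℕ → A) : Prop :=
  (∀ t < p, x t = y t) ∧ (∀ t, p ≤ t → t < q → y t = x (t + 1)) ∧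
    ∀ t, q < t → t < l → x t = y t

/-- the properties of the embedding of words of length `l` -/
structure Good (l : ℕ) (D : ℝ) (d : (ℕ → A) → (ℕ → A) → ℝ) : Prop where
  cut : IsCut d
  zero : ∀ x y, (∀ t < l, x t = y t) → d x y = 0
  lb : ∀ x y, (ED (pre x l) (pre y l) : ℝ) ≤ d x y
  ub : ∀ p q x y, p ≤ q → q < l → Sh l p q x y → d x y ≤ D

/-- Two words that have close subwords are close. -/
theorem ED_sub_word (x y : ℕ → A) (l s i j : ℕ) (hi : i < s) (hj : j < s) :
    ED (pre x (l + s - 1)) (pre y (l + s - 1)) ≤ 2 * (s - 1) + ED (pre (sh i x) l) (pre (sh j y) l) := by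
  have key : ∀ (z : ℕ → A) (k : ℕ), k < s → ED (pre (sh k z) l) (pre z (l + s - 1)) ≤ s - 1 := by
    intro z k hk
    have e1 : l + s - 1 = k + (l + (s - 1 - k)) := by omega
    rw [e1, pre_add, pre_add]
    have h1 := ED_append_right_le (pre (sh k z) l) (pre (sh l (sh k z)) (s - 1 - k))
    have h2 := ED_append_left_le (pre z k) (pre (sh k z) l ++ pre (sh l (sh k z)) (s - 1 - k))
    have h3 := ED_triangle (pre (sh k z) l) (pre (sh k z) l ++ pre (sh l (sh k z)) (s - 1 - k))
      (pre z k ++ (pre (sh k z) l ++ pre (sh l (sh k z)) (s - 1 - k)))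
    rw [pre_length] at h1 h2
    omega
  have h1 := key x i hi
  have h2 := key y j hj
  have h3 := ED_triangle (pre x (l + s - 1)) (pre (sh i x) l) (pre y (l + s - 1))
  have h4 := ED_triangle (pre (sh i x) l) (pre (sh j y) l) (pre y (l + s - 1))
  have h5 := ED_comm (pre x (l + s - 1)) (pre (sh i x) l)
  omega

/-- The embedding of a block of length `L` at scale `s`. -/
theorem scale {l s L : ℕ} (hs : 1 ≤ s) (hL : L = l + s - 1) {D : ℝ} (hD : 0 ≤ D)
    {d : (ℕ → A) → (ℕ → A) → ℝ} (hd : Good l D d) :
    ∃ E : (ℕ → A) → (ℕ → A) → ℝ, IsCut E ∧ (∀ x y, (∀ t < L, x t = y t) → E x y = 0) ∧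
      (∀ x y, (∀ t < L, y t = x (t + 1)) → E x y ≤ 2) ∧
      (∀ p q x y, p ≤ q → q < L → Sh L p q x y →
        E x y ≤ 2 + 2 * (Real.log 2 + 2 * Real.log s) * D) ∧
      (∀ x y, E x y < s → (ED (pre x L) (pre y L) : ℝ) < 3 * s - 2) := by
  classical
  have hs0 : (0 : ℝ) < s := by exact_mod_cast hs
  have hs1 : (1 : ℝ) ≤ s := by exact_mod_cast hs
  have hlog : 0 ≤ Real.log s := Real.log_nonneg hs1
  have hlog2 : 0 < Real.log 2 := Real.log_pos (by norm_num)
  set lam : ℝ := (Real.log 2 + 2 * Real.log s) / s with hlam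
  have hl0 : 0 ≤ lam := div_nonneg (by linarith) hs0.le
  have hls : lam * s = Real.log 2 + 2 * Real.log s := div_mul_cancel₀ _ hs0.ne'
  obtain ⟨E, hE, hup, hlo⟩ := histo hd.cut s lam hl0 (fun j (x : ℕ → A) => sh j x)
  refine ⟨E, hE, ?_, ?_, ?_, ?_⟩
  · intro x y hxy
    refine le_antisymm ?_ (hE.nonneg x y)
    refine (hup x y (range s) id (Finset.Subset.refl _) (fun j hj => hj)
      fun i _ j _ h => h).trans ?_
    have h1 : ∀ j ∈ range s, d (sh (id j) x) (sh j y) = 0 := by
      intro j hj
      rw [Finset.mem_range] at hj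
      exact hd.zero _ _ fun t ht => hxy _ (by simp only [id]; omega)
    rw [Finset.sum_eq_zero h1, Finset.card_range]
    simp
  · intro x y hxy
    refine (hup x y (range (s - 1)) (fun j => j + 1) ?_ ?_ fun i _ j _ h => by omega).trans ?_
    · intro j hj
      rw [Finset.mem_range] at hj ⊢
      omega
    · intro j hj
      rw [Finset.mem_range] at hj ⊢
      omega
    · have h1 : ∀ j ∈ range (s - 1), d (sh (j + 1) x) (sh j y) = 0 := by
        intro j hj
        rw [Finset.mem_range] at hj
        refine hd.zero _ _ fun t ht => ?_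
        show x (j + 1 + t) = y (j + t)
        rw [hxy _ (by omega)]
        congr 1
        omega
      rw [Finset.sum_eq_zero h1, Finset.card_range, Nat.cast_sub hs]
      push_cast
      linarith
  · intro p q x y hpq hq hxy
    obtain ⟨hx1, hx2, hx3⟩ := hxy
    set σ : ℕ → ℕ := fun j => if p ≤ j ∧ j + l ≤ q then j + 1 else j with hσ
    have hJ : (range s).erase (q - l) ⊆ range s := Finset.erase_subset _ _
    refine (hup x y ((range s).erase (q - l)) σ hJ ?_ ?_).trans ?_
    · intro j hj
      have hj' := Finset.mem_range.1 (hJ hj)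
      rw [Finset.mem_range]
      simp only [hσ]
      split_ifs <;> omega
    · intro i hi j hj hij
      have hi' := Finset.mem_range.1 (hJ hi)
      have hj' := Finset.mem_range.1 (hJ hj)
      have hi2 := Finset.ne_of_mem_erase hi
      have hj2 := Finset.ne_of_mem_erase hj
      simp only [hσ] at hij
      split_ifs at hij <;> omega
    · have hc : (s : ℝ) - ((range s).erase (q - l)).card ≤ 1 := by
        have h1 := Finset.pred_card_le_card_erase (s := range s) (a := q - l)
        rw [Finset.card_range] at h1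
        have h2 : s ≤ ((range s).erase (q - l)).card + 1 := by omega
        have h3 : (s : ℝ) ≤ ((range s).erase (q - l)).card + 1 := by exact_mod_cast h2
        linarith
      have hterm : ∀ j ∈ (range s).erase (q - l), d (sh (σ j) x) (sh j y) ≤ D := by
        intro j hj
        have hj' := Finset.mem_range.1 (hJ hj)
        by_cases h1 : p ≤ j ∧ j + l ≤ q
        · have e1 : σ j = j + 1 := by simp only [hσ]; rw [if_pos h1]
          rw [e1]
          refine le_trans (le_of_eq (hd.zero _ _ fun t ht => ?_)) hD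
          show x (j + 1 + t) = y (j + t)
          rw [hx2 _ (by omega) (by omega)]
          congr 1
          omega
        · have e1 : σ j = j := by simp only [hσ]; rw [if_neg h1]
          rw [e1]
          by_cases h2 : j + l ≤ p
          · refine le_trans (le_of_eq (hd.zero _ _ fun t ht => ?_)) hD
            exact hx1 _ (by omega)
          by_cases h3 : q < j
          · refine le_trans (le_of_eq (hd.zero _ _ fun t ht => ?_)) hD
            exact hx3 _ (by omega) (by omega)
          · rcases Nat.eq_zero_or_pos l with hl | hl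
            · refine le_trans (le_of_eq (hd.zero _ _ fun t ht => ?_)) hD
              omega
            refine hd.ub (p - j) (min (q - j) (l - 1)) _ _ (by omega) (by omega)
              ⟨fun t ht => ?_, fun t ht1 ht2 => ?_, fun t ht1 ht2 => ?_⟩
            · exact hx1 _ (by omega)
            · show y (j + t) = x (j + (t + 1))
              rw [hx2 _ (by omega) (by omega)]
              rfl
            · exact hx3 _ (by omega) (by omega)
      have hsum : ∑ j ∈ (range s).erase (q - l), d (sh (σ j) x) (sh j y) ≤ s * D := by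
        calc _ ≤ ∑ j ∈ (range s).erase (q - l), D := Finset.sum_le_sum hterm
          _ = ((range s).erase (q - l)).card * D := by rw [Finset.sum_const, nsmul_eq_mul]
          _ ≤ s * D := by
            refine mul_le_mul_of_nonneg_right ?_ hD
            exact_mod_cast (Finset.card_le_card hJ).trans (Finset.card_range s).le
      have h5 : 2 * lam * ∑ j ∈ (range s).erase (q - l), d (sh (σ j) x) (sh j y) ≤
          2 * lam * (s * D) := mul_le_mul_of_nonneg_left hsum (by positivity)
      have h6 : 2 * lam * (s * D) = 2 * (Real.log 2 + 2 * Real.log s) * D := by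
        rw [← hls]; ring
      linarith
  · intro x y hxy
    by_contra hcon
    push Not at hcon
    refine absurd (hlo x y fun i hi j hj => ?_) ?_
    · by_contra hij
      push Not at hij
      have h1 := ED_sub_word x y l s i j hi hj
      have h2 := (hd.lb (sh i x) (sh j y)).trans_lt hij
      rw [← hL] at h1
      have h3 : (ED (pre x L) (pre y L) : ℝ) ≤ 2 * (s - 1) + ED (pre (sh i x) l) (pre (sh j y) l) := by
        have h4 : (ED (pre x L) (pre y L) : ℝ) ≤
            ((2 * (s - 1) + ED (pre (sh i x) l) (pre (sh j y) l) : ℕ) : ℝ) := by exact_mod_cast h1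
        rw [Nat.cast_add, Nat.cast_mul, Nat.cast_sub hs] at h4
        exact_mod_cast h4
      linarith
    · rw [not_le]
      have h1 : (s : ℝ) ^ 2 * Real.exp (-(lam * s)) = 1 / 2 := by
        have e1 : Real.log 2 + 2 * Real.log s = Real.log (2 * (s : ℝ) ^ 2) := by
          rw [Real.log_mul (by norm_num) (by positivity), Real.log_pow]
          push_cast
          ring
        rw [hls, e1, Real.exp_neg, Real.exp_log (by positivity)]
        field_simp
      rw [h1]
      linarith

/-- The embedding of a block of length `L ≤ M`. -/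
theorem block {M : ℕ} {D : ℝ} (hD : 0 ≤ D)
    (h : ∀ l ≤ M, ∃ d : (ℕ → A) → (ℕ → A) → ℝ, Good l D d) (L : ℕ) (hL : L ≤ M) :
    ∃ B : (ℕ → A) → (ℕ → A) → ℝ, IsCut B ∧ (∀ x y, (∀ t < L, x t = y t) → B x y = 0) ∧
      (∀ x y, (ED (pre x L) (pre y L) : ℝ) ≤ B x y) ∧
      (∀ x y, (∀ t < L, y t = x (t + 1)) → B x y ≤ 12 * ((Nat.log 2 M + 1 : ℕ) : ℝ)) ∧
      (∀ p q x y, p ≤ q → q < L → Sh L p q x y →
        B x y ≤ 6 * ((Nat.log 2 M + 1 : ℕ) : ℝ) *
          (2 + 2 * (Real.log 2 + 2 * Real.log M) * D)) := by
  classical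
  rcases Nat.eq_zero_or_pos L with hL0 | hL0
  · subst hL0
    refine ⟨fun _ _ => 0, IsCut.zero, fun _ _ _ => rfl, fun x y => ?_, fun x y _ => by positivity,
      fun p q x y _ hq => by omega⟩
    simp [pre, ED_self]
  have hM : 1 ≤ M := le_trans hL0 hL
  have hM1 : (1 : ℝ) ≤ M := by exact_mod_cast hM
  set J := Nat.log 2 L with hJdef
  have hpow : ∀ j ≤ J, 2 ^ j ≤ L := fun j hj =>
    (Nat.pow_le_pow_right (by norm_num) hj).trans (Nat.pow_log_le_self 2 (by omega))
  have hex : ∀ j : ℕ, ∃ E : (ℕ → A) → (ℕ → A) → ℝ, j ≤ J → (IsCut E ∧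
      (∀ x y, (∀ t < L, x t = y t) → E x y = 0) ∧
      (∀ x y, (∀ t < L, y t = x (t + 1)) → E x y ≤ 2) ∧
      (∀ p q x y, p ≤ q → q < L → Sh L p q x y →
        E x y ≤ 2 + 2 * (Real.log 2 + 2 * Real.log ((2 ^ j : ℕ) : ℝ)) * D) ∧
      (∀ x y, E x y < ((2 ^ j : ℕ) : ℝ) →
        (ED (pre x L) (pre y L) : ℝ) < 3 * ((2 ^ j : ℕ) : ℝ) - 2)) := by
    intro j
    by_cases hj : j ≤ J
    · have h1 := hpow j hj
      have h2 : 1 ≤ 2 ^ j := Nat.one_le_two_pow
      obtain ⟨d, hd⟩ := h (L - 2 ^ j + 1) (by omega)
      obtain ⟨E, hE⟩ := scale (s := 2 ^ j) (L := L) h2 (by omega) hD hd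
      exact ⟨E, fun _ => hE⟩
    · exact ⟨fun _ _ => 0, fun hj' => absurd hj' hj⟩
  choose E hE using hex
  have hJM : J ≤ Nat.log 2 M := Nat.log_mono_right hL
  have hcard : (((range (J + 1)).card : ℕ) : ℝ) ≤ ((Nat.log 2 M + 1 : ℕ) : ℝ) := by
    rw [Finset.card_range]
    exact_mod_cast Nat.succ_le_succ hJM
  have hlog2 : 0 < Real.log 2 := Real.log_pos (by norm_num)
  have hmem : ∀ j ∈ range (J + 1), j ≤ J := fun j hj => Nat.lt_succ_iff.1 (Finset.mem_range.1 hj)
  have hone : ∀ x y, ∀ j ≤ J, 6 * E j x y ≤ 6 * ∑ j ∈ range (J + 1), E j x y := by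
    intro x y j hj
    refine mul_le_mul_of_nonneg_left ?_ (by norm_num)
    exact Finset.single_le_sum (f := fun j => E j x y)
      (fun i hi => (hE i (hmem i hi)).1.nonneg x y) (Finset.mem_range.2 (Nat.lt_succ_iff.2 hj))
  refine ⟨fun x y => 6 * ∑ j ∈ range (J + 1), E j x y, ?_, ?_, ?_, ?_, ?_⟩
  · exact (IsCut.sum _ _ fun j hj => (hE j (hmem j hj)).1).smul (by norm_num)
  · intro x y hxy
    show 6 * ∑ j ∈ range (J + 1), E j x y = 0
    rw [Finset.sum_eq_zero fun j hj => (hE j (hmem j hj)).2.1 x y hxy, mul_zero]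
  · intro x y
    show _ ≤ 6 * ∑ j ∈ range (J + 1), E j x y
    by_cases hc : ∃ j, j ≤ J ∧ E j x y < ((2 ^ j : ℕ) : ℝ)
    · obtain ⟨hj1, hj2⟩ := Nat.find_spec hc
      have hmin := fun i hi => Nat.find_min hc (m := i) hi
      set j := Nat.find hc
      have h1 := (hE j hj1).2.2.2.2 x y hj2
      rcases Nat.eq_zero_or_pos j with h0 | h0
      · rw [h0] at h1
        have h2 : ED (pre x L) (pre y L) = 0 := by
          have h3 : (ED (pre x L) (pre y L) : ℝ) < 1 := by
            refine h1.trans_le ?_
            norm_num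
          exact Nat.lt_one_iff.1 (by exact_mod_cast h3)
        rw [h2]
        have h3 := hone x y 0 (Nat.zero_le _)
        have h4 := (hE 0 (Nat.zero_le _)).1.nonneg x y
        push_cast
        linarith
      · obtain ⟨i, hi⟩ := Nat.exists_eq_add_of_le' h0
        have h2 := hmin i (by omega)
        push Not at h2
        have h3 := h2 (by omega)
        have h4 := hone x y i (by omega)
        rw [hi, pow_succ] at h1
        push_cast at h1 h3
        have h5 : (1 : ℝ) ≤ 2 ^ i := one_le_pow₀ (by norm_num)
        linarith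
    · push Not at hc
      have h1 := hc J le_rfl
      have h2 := ED_le_max (pre x L) (pre y L)
      rw [pre_length, pre_length, max_self] at h2
      have h3 : L < 2 ^ (J + 1) := Nat.lt_pow_succ_log_self (by norm_num) L
      have h4 : (ED (pre x L) (pre y L) : ℝ) ≤ 2 * ((2 ^ J : ℕ) : ℝ) := by
        have h5 : ED (pre x L) (pre y L) ≤ 2 * 2 ^ J := by rw [pow_succ] at h3; omega
        exact_mod_cast h5
      have h5 := hone x y J le_rfl
      have h6 := (hE J le_rfl).1.nonneg x y
      linarith
  · intro x y hxy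
    calc 6 * ∑ j ∈ range (J + 1), E j x y ≤ 6 * ∑ j ∈ range (J + 1), (2 : ℝ) :=
          mul_le_mul_of_nonneg_left (Finset.sum_le_sum fun j hj =>
            (hE j (hmem j hj)).2.2.1 x y hxy) (by norm_num)
      _ = 12 * (((range (J + 1)).card : ℕ) : ℝ) := by
          rw [Finset.sum_const, nsmul_eq_mul]; ring
      _ ≤ _ := mul_le_mul_of_nonneg_left hcard (by norm_num)
  · intro p q x y hpq hq hxy
    have hb : ∀ j ∈ range (J + 1), E j x y ≤ 2 + 2 * (Real.log 2 + 2 * Real.log M) * D := by
      intro j hj
      refine ((hE j (hmem j hj)).2.2.2.1 p q x y hpq hq hxy).trans ?_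
      have h1 : Real.log ((2 ^ j : ℕ) : ℝ) ≤ Real.log M := by
        refine Real.log_le_log (by positivity) ?_
        exact_mod_cast (hpow j (hmem j hj)).trans hL
      have h2 : 2 * (Real.log 2 + 2 * Real.log ((2 ^ j : ℕ) : ℝ)) ≤
          2 * (Real.log 2 + 2 * Real.log M) := by linarith
      have h3 := mul_le_mul_of_nonneg_right h2 hD
      linarith
    have hnn : 0 ≤ 2 + 2 * (Real.log 2 + 2 * Real.log M) * D := by
      have := Real.log_nonneg hM1
      positivity
    calc 6 * ∑ j ∈ range (J + 1), E j x y
        ≤ 6 * ∑ j ∈ range (J + 1), (2 + 2 * (Real.log 2 + 2 * Real.log M) * D) :=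
          mul_le_mul_of_nonneg_left (Finset.sum_le_sum hb) (by norm_num)
      _ = 6 * (((range (J + 1)).card : ℕ) : ℝ) * (2 + 2 * (Real.log 2 + 2 * Real.log M) * D) := by
          rw [Finset.sum_const, nsmul_eq_mul]; ring
      _ ≤ _ := mul_le_mul_of_nonneg_right (mul_le_mul_of_nonneg_left hcard (by norm_num)) hnn

/-- One step of the recursion: from words of length `≤ M` to words of length `≤ b M`. -/
theorem step {M b : ℕ} (hM : 1 ≤ M) {D : ℝ} (hD : 0 ≤ D)
    (h : ∀ l ≤ M, ∃ d : (ℕ → A) → (ℕ → A) → ℝ, Good l D d) (m : ℕ) (hm : m ≤ b * M) :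
    ∃ d : (ℕ → A) → (ℕ → A) → ℝ, Good m (12 * ((Nat.log 2 M + 1 : ℕ) : ℝ) * b +
      12 * ((Nat.log 2 M + 1 : ℕ) : ℝ) * (2 + 2 * (Real.log 2 + 2 * Real.log M) * D)) d := by
  classical
  have hM1 : (1 : ℝ) ≤ M := by exact_mod_cast hM
  have hlogM := Real.log_nonneg hM1
  have hlog2 : 0 < Real.log 2 := Real.log_pos (by norm_num)
  have hex := fun L : ℕ => block hD h (min M L) (min_le_left _ _)
  choose B hB using hex
  set Bd : ℝ := 6 * ((Nat.log 2 M + 1 : ℕ) : ℝ) * (2 + 2 * (Real.log 2 + 2 * Real.log M) * D)
    with hBd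
  have hBd0 : 0 ≤ Bd := by positivity
  refine ⟨fun x y => ∑ i ∈ range b, B (m - i * M) (sh (i * M) x) (sh (i * M) y), ?_, ?_, ?_, ?_⟩
  · exact IsCut.sum _ (fun i x y => B (m - i * M) (sh (i * M) x) (sh (i * M) y))
      fun i _ => (hB _).1.comap _
  · intro x y hxy
    refine Finset.sum_eq_zero fun i _ => (hB _).2.1 _ _ fun t ht => hxy _ ?_
    have := min_le_right M (m - i * M)
    omega
  · intro x y
    have key : ∀ k, (ED (pre x (min m (k * M))) (pre y (min m (k * M))) : ℝ) ≤
        ∑ i ∈ range k, B (m - i * M) (sh (i * M) x) (sh (i * M) y) := by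
      intro k
      induction k with
      | zero => simp [pre, ED_self]
      | succ k ih =>
        rw [Finset.sum_range_succ]
        have e1 : min m ((k + 1) * M) = min m (k * M) + min M (m - k * M) := by
          rw [Nat.succ_mul]; omega
        rw [e1, pre_add, pre_add]
        have h1 := ED_append_le (pre x (min m (k * M))) (pre y (min m (k * M)))
          (pre (sh (min m (k * M)) x) (min M (m - k * M)))
          (pre (sh (min m (k * M)) y) (min M (m - k * M)))
        have h2 : (ED (pre (sh (min m (k * M)) x) (min M (m - k * M)))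
            (pre (sh (min m (k * M)) y) (min M (m - k * M))) : ℝ) ≤
            B (m - k * M) (sh (k * M) x) (sh (k * M) y) := by
          rcases Nat.le_total (k * M) m with hk | hk
          · rw [min_eq_right hk]
            exact (hB _).2.2.1 _ _
          · rw [Nat.sub_eq_zero_of_le hk, min_eq_right (Nat.zero_le M)]
            simp only [pre, List.range_zero, List.map_nil, ED_self, Nat.cast_zero]
            exact (hB _).1.nonneg _ _
        have h3 : (ED (pre x (min m (k * M)) ++ pre (sh (min m (k * M)) x) (min M (m - k * M)))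
            (pre y (min m (k * M)) ++ pre (sh (min m (k * M)) y) (min M (m - k * M))) : ℝ) ≤
            ED (pre x (min m (k * M))) (pre y (min m (k * M))) +
            ED (pre (sh (min m (k * M)) x) (min M (m - k * M)))
              (pre (sh (min m (k * M)) y) (min M (m - k * M))) := by exact_mod_cast h1
        linarith
    have h1 := key b
    rwa [min_eq_left hm] at h1
  · intro p q x y hpq hq hxy
    obtain ⟨hx1, hx2, hx3⟩ := hxy
    have hterm : ∀ i ∈ range b, B (m - i * M) (sh (i * M) x) (sh (i * M) y) ≤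
        12 * ((Nat.log 2 M + 1 : ℕ) : ℝ) + ((if i = p / M then Bd else 0) +
          (if i = q / M then Bd else 0)) := by
      intro i _
      have h12 : (0 : ℝ) ≤ 12 * ((Nat.log 2 M + 1 : ℕ) : ℝ) := by positivity
      have hif : ∀ c : Prop, [Decidable c] → (0 : ℝ) ≤ if c then Bd else 0 := by
        intro c _
        split_ifs
        · exact hBd0
        · exact le_rfl
      have hi1 := hif (i = p / M)
      have hi2 := hif (i = q / M)
      have hmin1 := min_le_right M (m - i * M)
      have hmin2 := min_le_left M (m - i * M)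
      set L := min M (m - i * M) with hLdef
      by_cases c1 : i * M + L ≤ p ∨ q < i * M ∨ L = 0
      · rw [(hB _).2.1 _ _ fun t ht => ?_]
        · linarith
        · rcases c1 with c1 | c1 | c1
          · exact hx1 _ (by omega)
          · exact hx3 _ (by omega) (by omega)
          · omega
      push Not at c1
      by_cases c2 : p ≤ i * M ∧ i * M + L ≤ q
      · refine ((hB _).2.2.2.1 _ _ fun t ht => ?_).trans (by linarith)
        exact hx2 _ (by omega) (by omega)
      · have hSh : Sh L (p - i * M) (min (q - i * M) (L - 1)) (sh (i * M) x) (sh (i * M) y) := by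
          refine ⟨fun t ht => ?_, fun t ht1 ht2 => ?_, fun t ht1 ht2 => ?_⟩
          · exact hx1 _ (by omega)
          · exact hx2 _ (by omega) (by omega)
          · exact hx3 _ (by omega) (by omega)
        have h1 := (hB (m - i * M)).2.2.2.2 (p - i * M) (min (q - i * M) (L - 1)) _ _
          (by omega) (by omega) hSh
        by_cases c3 : i * M ≤ p
        · have e1 : i = p / M := by
            symm
            rw [Nat.div_eq_iff (by omega)]
            constructor
            · exact c3
            · have : i * M + M ≤ i * M + M := le_rfl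
              omega
          rw [if_pos e1]
          linarith
        · have e1 : i = q / M := by
            symm
            rw [Nat.div_eq_iff (by omega)]
            constructor
            · omega
            · omega
          rw [if_pos e1]
          linarith
    have hite : ∀ c : ℕ, ∑ i ∈ range b, (if i = c then Bd else 0) ≤ Bd := by
      intro c
      rw [Finset.sum_ite_eq']
      split_ifs
      · exact le_rfl
      · exact hBd0
    calc ∑ i ∈ range b, B (m - i * M) (sh (i * M) x) (sh (i * M) y)
        ≤ ∑ i ∈ range b, (12 * ((Nat.log 2 M + 1 : ℕ) : ℝ) + ((if i = p / M then Bd else 0) +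
          (if i = q / M then Bd else 0))) := Finset.sum_le_sum hterm
      _ = 12 * ((Nat.log 2 M + 1 : ℕ) : ℝ) * b + (∑ i ∈ range b, (if i = p / M then Bd else 0) +
          ∑ i ∈ range b, (if i = q / M then Bd else 0)) := by
          rw [Finset.sum_add_distrib, Finset.sum_add_distrib, Finset.sum_const, Finset.card_range,
            nsmul_eq_mul]
          ring
      _ ≤ 12 * ((Nat.log 2 M + 1 : ℕ) : ℝ) * b + (Bd + Bd) := by
          have h1 := hite (p / M)
          have h2 := hite (q / M)
          linarith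
      _ = _ := by rw [hBd]; ring

end Vale.Agent.P238.H360
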