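import Vale.Agent.P238.H360.Rec
import Vale.Agent.P238.H360.Defs

/-!
# P238 / H360 / Top : the upper bound for the distortion, all finite alphabets
-/

set_option autoImplicit false

namespace Vale.Agent.P238.H360

open Finset Vale.Agent.P238 Vale.Agent.P238.Full

/-! ### from cut semimetrics to `ℓ₁` -/

theorem exists_lp {X : Type} {d : X → X → ℝ} (hd : IsCut d) :
    ∃ f : X → lp (fun _ : ℕ => ℝ) 1, ∀ x y, ‖f x - f y‖ = d x y := by
  classical
  obtain ⟨K, _, w, S, hw, hd⟩ := hd
  let e : K ≃ Fin (Fintype.card K) := Fintype.equivFin K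
  let F : X → ℕ → ℝ := fun x i => if h : i < Fintype.card K then
    w (e.symm ⟨i, h⟩) * (if S (e.symm ⟨i, h⟩) x then 1 else 0) else 0
  refine ⟨fun x => ∑ i ∈ range (Fintype.card K), lp.single 1 i (F x i), fun x y => ?_⟩
  have h1 : (∑ i ∈ range (Fintype.card K), lp.single (E := fun _ : ℕ => ℝ) 1 i (F x i)) -
      ∑ i ∈ range (Fintype.card K), lp.single (E := fun _ : ℕ => ℝ) 1 i (F y i) =
      ∑ i ∈ range (Fintype.card K), lp.single (E := fun _ : ℕ => ℝ) 1 i (F x i - F y i) := by
    rw [← Finset.sum_sub_distrib]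
    exact Finset.sum_congr rfl fun i _ => (lp.single_sub (E := fun _ : ℕ => ℝ) 1 i _ _).symm
  show ‖(∑ i ∈ range (Fintype.card K), lp.single (E := fun _ : ℕ => ℝ) 1 i (F x i)) -
      ∑ i ∈ range (Fintype.card K), lp.single (E := fun _ : ℕ => ℝ) 1 i (F y i)‖ = d x y
  rw [h1]
  have h2 := lp.norm_sum_single (E := fun _ : ℕ => ℝ) (p := 1) (by norm_num)
    (fun i => F x i - F y i) (range (Fintype.card K))
  simp only [ENNReal.toReal_one, Real.rpow_one] at h2
  rw [h2, hd, ← Equiv.sum_comp e.symm, ← Fin.sum_univ_eq_sum_range (fun i => ‖F x i - F y i‖)]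
  refine Finset.sum_congr rfl fun i _ => ?_
  have hF : ∀ z, F z i = w (e.symm i) * (if S (e.symm i) z then 1 else 0) := by
    intro z
    simp only [F]
    rw [dif_pos i.2]
  rw [hF, hF, ← mul_sub, Real.norm_eq_abs, abs_mul, abs_of_nonneg (hw _)]
  congr 1
  by_cases h3 : S (e.symm i) x <;> by_cases h4 : S (e.symm i) y <;> simp [h3, h4]

/-- An upper bound for `c₁`. -/
theorem c1_le {X : Type} {ρ d : X → X → ℝ} (hd : IsCut d) {D : ℝ} (hD : 0 ≤ D)
    (hpos : ∀ x y, x ≠ y → 0 < ρ x y) (h1 : ∀ x y, ρ x y ≤ d x y)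
    (h2 : ∀ x y, d x y ≤ D * ρ x y) : c1 ρ ≤ D := by
  obtain ⟨f, hf⟩ := exists_lp hd
  have hinj : Function.Injective f := by
    intro x y hxy
    by_contra hne
    have h3 := hf x y
    rw [hxy, sub_self, norm_zero] at h3
    have h4 := hpos x y hne
    have h5 := h1 x y
    linarith
  have hbdd : BddBelow (Set.range fun f : {f : X → lp (fun _ : ℕ => ℝ) 1 // Function.Injective f} =>
      distortion ρ f.1) := by
    refine ⟨0, ?_⟩
    rintro _ ⟨g, rfl⟩
    refine mul_nonneg (Real.iSup_nonneg fun p => ?_) (Real.iSup_nonneg fun p => ?_)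
    · exact div_nonneg (norm_nonneg _) (hpos _ _ p.2).le
    · exact div_nonneg (hpos _ _ p.2).le (norm_nonneg _)
  refine (ciInf_le hbdd ⟨f, hinj⟩).trans ?_
  have h3 : (⨆ p : {p : X × X // p.1 ≠ p.2}, ‖f p.1.1 - f p.1.2‖ / ρ p.1.1 p.1.2) ≤ D := by
    refine Real.iSup_le (fun p => ?_) hD
    rw [hf, div_le_iff₀ (hpos _ _ p.2)]
    exact h2 _ _
  have h4 : (⨆ p : {p : X × X // p.1 ≠ p.2}, ρ p.1.1 p.1.2 / ‖f p.1.1 - f p.1.2‖) ≤ 1 := by
    refine Real.iSup_le (fun p => ?_) zero_le_one
    rw [hf]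
    exact div_le_one_of_le₀ (h1 _ _) (hd.nonneg _ _)
  have h5 : 0 ≤ (⨆ p : {p : X × X // p.1 ≠ p.2}, ρ p.1.1 p.1.2 / ‖f p.1.1 - f p.1.2‖) :=
    Real.iSup_nonneg fun p => div_nonneg (hpos _ _ p.2).le (norm_nonneg _)
  calc distortion ρ f ≤ D * 1 := mul_le_mul h3 h4 h5 hD
    _ = D := mul_one _

/-! ### the base and the iteration -/

theorem Good.mono {A : Type} {l : ℕ} {D D' : ℝ} {d : (ℕ → A) → (ℕ → A) → ℝ} (h : Good l D d)
    (hD : D ≤ D') : Good l D' d :=
  ⟨h.cut, h.zero, h.lb, fun p q x y h1 h2 h3 => (h.ub p q x y h1 h2 h3).trans hD⟩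

theorem base {A : Type} [Fintype A] [DecidableEq A] (l : ℕ) (hl : l ≤ 1) :
    ∃ d : (ℕ → A) → (ℕ → A) → ℝ, Good l 1 d := by
  rcases Nat.eq_zero_or_pos l with h0 | h0
  · subst h0
    refine ⟨fun _ _ => 0, IsCut.zero, fun _ _ _ => rfl, fun x y => ?_, fun p q x y _ h => by omega⟩
    simp [pre, ED_self]
  · obtain rfl : l = 1 := by omega
    refine ⟨fun x y => if x 0 = y 0 then 0 else 1, ⟨A, inferInstance, fun _ => 1 / 2,
      fun a x => decide (x 0 = a), fun _ => by norm_num, fun x y => ?_⟩, fun x y h => ?_,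
      fun x y => ?_, fun p q x y _ _ _ => ?_⟩
    · show (if x 0 = y 0 then (0 : ℝ) else 1) = _
      by_cases hxy : x 0 = y 0
      · simp [hxy]
      · have h1 : ∀ a : A, (1 / 2 : ℝ) * (if decide (x 0 = a) = decide (y 0 = a) then 0 else 1) =
            1 / 2 * (if x 0 = a then 1 else 0) + 1 / 2 * (if y 0 = a then 1 else 0) := by
          intro a
          by_cases h2 : x 0 = a <;> by_cases h3 : y 0 = a
          · exact absurd (h2.trans h3.symm) hxy
          · simp [h2, h3]
          · simp [h2, h3]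
          · simp [h2, h3]
        rw [Finset.sum_congr rfl fun a _ => h1 a, Finset.sum_add_distrib, ← Finset.mul_sum,
          ← Finset.mul_sum, if_neg hxy]
        simp only [Finset.sum_ite_eq, Finset.mem_univ, if_true]
        norm_num
    · exact if_pos (h 0 (by norm_num))
    · show _ ≤ (if x 0 = y 0 then (0 : ℝ) else 1)
      split_ifs with hxy
      · rw [pre_congr (y := y) fun t ht => ?_, ED_self]
        · simp
        · obtain rfl : t = 0 := by omega
          exact hxy
      · have h1 := ED_le_max (pre x 1) (pre y 1)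
        rw [pre_length, pre_length, max_self] at h1
        exact_mod_cast h1
    · show (if x 0 = y 0 then (0 : ℝ) else 1) ≤ 1
      split_ifs <;> norm_num

theorem iter {A : Type} [Fintype A] [DecidableEq A] {b N : ℕ} (hb : 1 ≤ b) : ∀ k, b ^ k ≤ N →
    ∀ m ≤ b ^ k, ∃ d : (ℕ → A) → (ℕ → A) → ℝ,
      Good m (b * (108 * ((Nat.log 2 N + 1 : ℕ) : ℝ) ^ 2) ^ k) d := by
  intro k
  have hb1 : (1 : ℝ) ≤ b := by exact_mod_cast hb
  set g : ℝ := ((Nat.log 2 N + 1 : ℕ) : ℝ) with hg
  have hg1 : 1 ≤ g := by rw [hg]; exact_mod_cast Nat.succ_le_succ (Nat.zero_le _)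
  induction k with
  | zero =>
    intro _ m hm
    obtain ⟨d, hd⟩ := base (A := A) m (by simpa using hm)
    exact ⟨d, hd.mono (by simpa using hb1)⟩
  | succ k ih =>
    intro hN m hm
    have hk : b ^ k ≤ b ^ (k + 1) := Nat.pow_le_pow_right hb (Nat.le_succ k)
    have hM : 1 ≤ b ^ k := Nat.one_le_pow _ _ hb
    set r : ℝ := 108 * g ^ 2 with hr
    have hr1 : 1 ≤ r := by nlinarith
    have hrk : 1 ≤ r ^ k := one_le_pow₀ hr1
    have hD0 : 0 ≤ (b : ℝ) * r ^ k := by positivity
    obtain ⟨d, hd⟩ := step (A := A) (M := b ^ k) (b := b) hM hD0 (ih (hk.trans hN)) m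
      (by rw [pow_succ] at hm; rwa [mul_comm])
    refine ⟨d, hd.mono ?_⟩
    have hL : ((Nat.log 2 (b ^ k) + 1 : ℕ) : ℝ) ≤ g := by
      rw [hg]
      exact_mod_cast Nat.succ_le_succ (Nat.log_mono_right (hk.trans hN))
    have hL0 : (0 : ℝ) ≤ ((Nat.log 2 (b ^ k) + 1 : ℕ) : ℝ) := Nat.cast_nonneg _
    have hlog2a : 0 < Real.log 2 := Real.log_pos (by norm_num)
    have hlog2b : Real.log 2 ≤ 1 := by
      have := Real.log_two_lt_d9
      linarith
    have hMr : (1 : ℝ) ≤ ((b ^ k : ℕ) : ℝ) := by exact_mod_cast hM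
    have hlogM : Real.log ((b ^ k : ℕ) : ℝ) ≤ g := by
      have h1 : ((b ^ k : ℕ) : ℝ) ≤ (2 : ℝ) ^ (Nat.log 2 (b ^ k) + 1) := by
        exact_mod_cast (Nat.lt_pow_succ_log_self (by norm_num) (b ^ k)).le
      have h2 := Real.log_le_log (by linarith) h1
      rw [Real.log_pow] at h2
      refine h2.trans ?_
      calc ((Nat.log 2 (b ^ k) + 1 : ℕ) : ℝ) * Real.log 2 ≤ g * 1 :=
            mul_le_mul hL hlog2b hlog2a.le (by linarith)
        _ = g := mul_one _
    have hq : Real.log 2 + 2 * Real.log ((b ^ k : ℕ) : ℝ) ≤ 3 * g := by linarith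
    have hlogM0 : 0 ≤ Real.log ((b ^ k : ℕ) : ℝ) := Real.log_nonneg hMr
    have hX : (2 : ℝ) + 2 * (Real.log 2 + 2 * Real.log ((b ^ k : ℕ) : ℝ)) * (b * r ^ k) ≤
        2 + 2 * (3 * g) * (b * r ^ k) := by
      have := mul_le_mul_of_nonneg_right (mul_le_mul_of_nonneg_left hq (by norm_num : (0:ℝ) ≤ 2)) hD0
      linarith
    calc 12 * ((Nat.log 2 (b ^ k) + 1 : ℕ) : ℝ) * b + 12 * ((Nat.log 2 (b ^ k) + 1 : ℕ) : ℝ) *
          (2 + 2 * (Real.log 2 + 2 * Real.log ((b ^ k : ℕ) : ℝ)) * (b * r ^ k))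
        ≤ 12 * g * b + 12 * g * (2 + 2 * (3 * g) * (b * r ^ k)) := by
          refine add_le_add ?_ ?_
          · exact mul_le_mul_of_nonneg_right (mul_le_mul_of_nonneg_left hL (by norm_num))
              (by linarith)
          · refine mul_le_mul (mul_le_mul_of_nonneg_left hL (by norm_num)) hX ?_ (by linarith)
            have : 0 ≤ Real.log 2 + 2 * Real.log ((b ^ k : ℕ) : ℝ) := by linarith
            positivity
      _ ≤ b * r ^ (k + 1) := by
          have e1 : 12 * g * (b : ℝ) ≤ 12 * g ^ 2 * (b * r ^ k) := by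
            have h1 : (b : ℝ) ≤ b * r ^ k := le_mul_of_one_le_right (by linarith) hrk
            have h2 : g ≤ g ^ 2 := by nlinarith
            have h3 := mul_le_mul h2 h1 (by linarith) (by positivity)
            linarith
          have e2 : 24 * g ≤ 24 * g ^ 2 * (b * r ^ k) := by
            have h1 : 1 ≤ (b : ℝ) * r ^ k := one_le_mul_of_one_le_of_one_le hb1 hrk
            have h2 : g ≤ g ^ 2 := by nlinarith
            have h3 := mul_le_mul h2 h1 zero_le_one (by positivity)
            linarith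
          have e3 : (b : ℝ) * r ^ (k + 1) = 108 * g ^ 2 * (b * r ^ k) := by
            rw [pow_succ, hr]; ring
          rw [e3]
          nlinarith [e1, e2]

/-! ### words -/

theorem binED_eq (n : ℕ) : binED n = wordED Bool n := rfl

section words

variable {α : Type}

/-- a word, prolonged by one fixed letter -/
def pad (c : α) (l : List α) : ℕ → α := fun t => l.getD t c

theorem pad_append_left (c : α) (u v : List α) {t : ℕ} (h : t < u.length) :
    pad c (u ++ v) t = pad c u t := by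
  unfold pad
  exact List.getD_append _ _ _ _ h

theorem pad_append_right (c : α) (u v : List α) (t : ℕ) :
    pad c (u ++ v) (u.length + t) = pad c v t := by
  unfold pad
  rw [List.getD_append_right _ _ _ _ (Nat.le_add_right _ _), Nat.add_sub_cancel_left]

theorem pad_cons_succ (c a : α) (v : List α) (t : ℕ) : pad c (a :: v) (t + 1) = pad c v t := rfl

theorem pre_pad (c : α) (l : List α) (r : ℕ) :
    pre (pad c l) (l.length + r) = l ++ List.replicate r c := by
  rw [pre_add]
  congr 1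
  · unfold pre pad
    apply List.ext_getElem
    · simp
    · intro i h1 h2
      simp [List.getD_eq_getElem?_getD, List.getElem?_eq_getElem h2]
  · unfold pre sh pad
    apply List.ext_getElem
    · simp
    · intro i h1 h2
      simp

theorem step_pad {M : ℕ} {D : ℝ} {d : (ℕ → α) → (ℕ → α) → ℝ} (hd : Good M D d) (hM : 1 ≤ M)
    (c : α) {x y : List α} (h : EditStep x y) (hx : x.length ≤ M) (hy : y.length ≤ M) :
    d (pad c x) (pad c y) ≤ D := by
  have key : ∀ (u v : List α) (a : α), (u ++ a :: v).length ≤ M →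
      d (pad c (u ++ a :: v)) (pad c (u ++ v)) ≤ D := by
    intro u v a hl
    simp only [List.length_append, List.length_cons] at hl
    refine hd.ub u.length (M - 1) _ _ (by omega) (by omega)
      ⟨fun t ht => ?_, fun t ht1 ht2 => ?_, fun t ht1 ht2 => by omega⟩
    · rw [pad_append_left c u _ ht, pad_append_left c u _ ht]
    · obtain ⟨r, rfl⟩ := Nat.exists_eq_add_of_le ht1
      rw [pad_append_right, Nat.add_assoc, pad_append_right, pad_cons_succ]
  cases h with
  | ins u v a =>
    rw [hd.cut.symm]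
    exact key u v a hy
  | del u v a => exact key u v a hx
  | sub u v a b =>
    simp only [List.length_append, List.length_cons] at hx
    refine hd.ub u.length u.length _ _ le_rfl (by omega)
      ⟨fun t ht => ?_, fun t ht1 ht2 => by omega, fun t ht1 ht2 => ?_⟩
    · rw [pad_append_left c u _ ht, pad_append_left c u _ ht]
    · obtain ⟨r, rfl⟩ := Nat.exists_eq_add_of_lt ht1
      rw [Nat.add_assoc, pad_append_right, pad_append_right, pad_cons_succ, pad_cons_succ]

theorem steps_pad {M : ℕ} {D : ℝ} {d : (ℕ → α) → (ℕ → α) → ℝ} (hd : Good M D d) (hM : 1 ≤ M)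
    (c : α) {k : ℕ} {x y : List α} (h : EditSteps k x y) (hx : x.length + k ≤ M) :
    d (pad c x) (pad c y) ≤ D * k := by
  induction h with
  | refl x => rw [hd.cut.self]; simp
  | @tail k x y z h1 h2 ih =>
    have h3 := (steps_length h1).2
    have h4 := (steps_length (EditSteps.single h2)).2
    have h5 := step_pad hd hM c h2 (by omega) (by omega)
    have h6 := ih (by omega)
    have h7 := hd.cut.triangle (pad c x) (pad c y) (pad c z)
    push_cast
    linarith

theorem wordED_pos {n : ℕ} {x y : Fin n → α} (h : x ≠ y) : 0 < wordED α n x y := by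
  unfold wordED
  have h1 : ED (List.ofFn x) (List.ofFn y) ≠ 0 := by
    intro h0
    exact h (List.ofFn_injective (ED_eq_zero h0))
  exact_mod_cast Nat.pos_of_ne_zero h1

/-- The explicit upper bound. -/
theorem word_upper [Fintype α] [DecidableEq α] [Nonempty α] {n b k N : ℕ} (hn : 1 ≤ n)
    (hb : 1 ≤ b) (h2 : 2 * n ≤ b ^ k) (hN : b ^ k ≤ N) :
    c1 (wordED α n) ≤ b * (108 * ((Nat.log 2 N + 1 : ℕ) : ℝ) ^ 2) ^ k := by
  obtain ⟨d, hd⟩ := iter (A := α) hb k hN (2 * n) h2
  let c : α := Classical.arbitrary α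
  refine c1_le (d := fun x y => d (pad c (List.ofFn x)) (pad c (List.ofFn y))) ?_ (by positivity)
    (fun x y h => wordED_pos h) (fun x y => ?_) (fun x y => ?_)
  · exact hd.cut.comap fun x : Fin n → α => pad c (List.ofFn x)
  · have h1 := ED_suffix_ge (List.ofFn x) (List.ofFn y) (List.replicate n c)
    have h3 : ∀ z : Fin n → α, pre (pad c (List.ofFn z)) (2 * n) =
        List.ofFn z ++ List.replicate n c := by
      intro z
      have h4 := pre_pad c (List.ofFn z) n
      rwa [List.length_ofFn, ← two_mul] at h4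
    rw [← h3, ← h3] at h1
    calc wordED α n x y ≤ (ED (pre (pad c (List.ofFn x)) (2 * n))
          (pre (pad c (List.ofFn y)) (2 * n)) : ℝ) := by
          unfold wordED
          exact_mod_cast h1
      _ ≤ _ := hd.lb _ _
  · refine steps_pad hd (by omega) c (ED_steps _ _) ?_
    have h1 := ED_le_max (List.ofFn x) (List.ofFn y)
    simp only [List.length_ofFn, max_self] at h1 ⊢
    omega

end words

end Vale.Agent.P238.H360
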